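import Crest.Agent.X261.Psh.Defs
import Crest.Agent.R276.Poi_999

/-!
# Row 261, package PSH (helper71), file `Hol71`

Holomorphic discs and locality, by a penalisation argument (no convolution).

* `LSub D u` : sub-mean value property on arbitrarily small discs at every point;
* `disc_le`  : sub-mean value property on holomorphic discs;
* `comp_hol` : pull-back of psh functions by holomorphic maps;
* `of_lsub`, `of_local`, `glue` : plurisubharmonicity is local, gluing of a maximum;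
* `isPsh_re` : real parts of holomorphic functions.
-/

set_option autoImplicit false
set_option linter.dupNamespace false

open Set Filter Topology Metric
open scoped InnerProductSpace

noncomputable section

namespace Crest.Agent.X261.Psh.Hol

open Crest.Agent.R275.FL884 (DiscIn)
open Crest.Agent.R276.Poi_999 (reP reP_cont reP_mean exists_reP)

variable {E : Type*} [NormedAddCommGroup E] [NormedSpace ℂ E]

/-- the sub-mean value inequality on the circle `z + w • v`, `‖w‖ = 1` -/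
def SubAt (u : E → EReal) (z v : E) : Prop :=
  ∀ g : ℂ → ℝ, Continuous g →
    (∀ w : ℂ, ‖w‖ = 1 → u (z + w • v) ≤ g w) → u z ≤ (Real.circleAverage g 0 1 : ℝ)

/-- sub-mean value property on arbitrarily small circles -/
def LSub (D : Set E) (u : E → EReal) : Prop :=
  ∀ z ∈ D, ∀ v : E, ∀ δ : ℝ, 0 < δ → ∃ ρ : ℝ, 0 < ρ ∧ ρ < δ ∧ SubAt u z ((ρ : ℂ) • v)

theorem exists_ext {g : ℂ → ℝ} (hg : ContinuousOn g (sphere 0 1)) :
    ∃ g' : ℂ → ℝ, Continuous g' ∧ EqOn g' g (sphere 0 1) := by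
  obtain ⟨g', hg'⟩ := ContinuousMap.exists_restrict_eq (isClosed_sphere (x := (0 : ℂ)) (ε := 1))
    ⟨(sphere (0 : ℂ) 1).domRestrict g, hg.domRestrict⟩
  exact ⟨g', g'.continuous, fun w hw => congrArg (fun f : C(sphere (0 : ℂ) 1, ℝ) => f ⟨w, hw⟩) hg'⟩

theorem SubAt.on {u : E → EReal} {z v : E} (h : SubAt u z v) {g : ℂ → ℝ}
    (hg : ContinuousOn g (sphere 0 1)) (hle : ∀ w : ℂ, ‖w‖ = 1 → u (z + w • v) ≤ g w) :
    u z ≤ (Real.circleAverage g 0 1 : ℝ) := by
  obtain ⟨g', h1, h2⟩ := exists_ext hg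
  rw [← Real.circleAverage_congr_sphere (f₁ := g') (by simpa using h2)]
  exact h g' h1 fun w hw => by rw [h2 (by simpa using hw)]; exact hle w hw

theorem mean_re {H : ℂ → ℂ} (hH : DiffContOnCl ℂ H (ball 0 1)) :
    Real.circleAverage (fun w => (H w).re) 0 1 = (H 0).re := by
  have h1 : DiffContOnCl ℂ H (ball 0 |(1 : ℝ)|) := by simpa using hH
  have h3 : CircleIntegrable H 0 1 := by
    refine ContinuousOn.circleIntegrable zero_le_one (hH.continuousOn.mono ?_)
    rw [closure_ball _ one_ne_zero]; exact sphere_subset_closedBall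
  have h4 := Complex.reCLM.circleAverage_comp_comm h3
  rw [h1.circleAverage] at h4
  exact h4

/-- the inequality against the real part of a holomorphic function -/
theorem SubAt.re {u : E → EReal} {z v : E} (h : SubAt u z v) {H : ℂ → ℂ}
    (hH : DiffContOnCl ℂ H (ball 0 1)) (hle : ∀ w : ℂ, ‖w‖ = 1 → u (z + w • v) ≤ (H w).re) :
    u z ≤ (H 0).re := by
  rw [← mean_re hH]
  refine h.on (Complex.continuous_re.comp_continuousOn (hH.continuousOn.mono ?_)) hle
  rw [closure_ball _ one_ne_zero]; exact sphere_subset_closedBall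

theorem discIn_small {U : Set E} {z : E} (hU : U ∈ 𝓝 z) (v : E) :
    ∃ δ : ℝ, 0 < δ ∧ ∀ ρ : ℝ, 0 < ρ → ρ < δ → DiscIn U z ((ρ : ℂ) • v) := by
  have h : ∀ᶠ w in 𝓝 (0 : ℂ), z + w • v ∈ U :=
    (continuous_disc z v).continuousAt.eventually (by simpa using hU)
  obtain ⟨δ, hδ, h⟩ := Metric.eventually_nhds_iff.1 h
  refine ⟨δ, hδ, fun ρ h1 h2 w hw => ?_⟩
  rw [smul_smul]
  refine h ?_
  rw [dist_zero_right, norm_mul, Complex.norm_real, Real.norm_of_nonneg h1.le]
  nlinarith [norm_nonneg w]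

theorem lsub_of_nhds {D : Set E} {u : E → EReal} (h : ∀ z ∈ D, ∃ U ∈ 𝓝 z, Sub U u) :
    LSub D u := by
  intro z hz v δ hδ
  obtain ⟨U, hU, hs⟩ := h z hz
  obtain ⟨δ', hδ', h'⟩ := discIn_small hU v
  have h1 : 0 < min δ δ' / 2 := by positivity
  refine ⟨min δ δ' / 2, h1, by linarith [min_le_left δ δ'], hs _ _ (h' _ h1 ?_)⟩
  linarith [min_le_right δ δ']

theorem lsub_of_sub {D : Set E} (hD : IsOpen D) {u : E → EReal} (h : Sub D u) : LSub D u :=
  lsub_of_nhds fun _ hz => ⟨D, hD.mem_nhds hz, h⟩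

/-- from polynomial majorants to continuous majorants -/
theorem le_avg_of_poly {F : ℂ → EReal}
    (h : ∀ P : Polynomial ℂ, (∀ w : ℂ, ‖w‖ = 1 → F w < reP P w) → F 0 ≤ reP P 0)
    {g : ℂ → ℝ} (hg : Continuous g) (hle : ∀ w : ℂ, ‖w‖ = 1 → F w ≤ g w) :
    F 0 ≤ (Real.circleAverage g 0 1 : ℝ) := by
  refine le_coe_of_forall fun ε hε => ?_
  obtain ⟨P, hP⟩ := exists_reP (f := fun w => g w + ε / 2) (by fun_prop) (half_pos hε)
  refine (h P fun w hw => (hle w hw).trans_lt (EReal.coe_lt_coe_iff.2 ?_)).trans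
    (EReal.coe_le_coe_iff.2 ?_)
  · have := abs_lt.1 (hP w (by simpa using hw)); linarith [this.1]
  · rw [← reP_mean P 0 1, ← avg_add_const hg]
    refine avg_mono (reP_cont P) (by fun_prop) fun w hw => ?_
    have := abs_lt.1 (hP w (by simpa using hw)); linarith [this.2]

section core

variable {V : Type*} [NormedAddCommGroup V] [InnerProductSpace ℂ V] [FiniteDimensional ℂ V]

theorem core {D : Set V} (hD : IsOpen D) {u : V → EReal} (hu : UpperSemicontinuousOn u D)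
    (ht : ∀ x ∈ D, u x < ⊤) (hl : LSub D u) {f : ℂ → V} (hf : DiffContOnCl ℂ f (ball 0 1))
    (hm : MapsTo f (closedBall 0 1) D) (P : Polynomial ℂ)
    (hP : ∀ w : ℂ, ‖w‖ = 1 → u (f w) < reP P w) : u (f 0) ≤ reP P 0 := by
  have : ProperSpace V := FiniteDimensional.proper ℂ V
  by_contra hcon
  push Not at hcon
  have hfc : ContinuousOn f (closedBall 0 1) := by
    have := hf.continuousOn; rwa [closure_ball _ one_ne_zero] at this
  have h0 : (0 : ℂ) ∈ closedBall (0 : ℂ) 1 := by simp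
  obtain ⟨a, ha⟩ : ∃ a : ℝ, u (f 0) = a :=
    ⟨_, (EReal.coe_toReal (ht _ (hm h0)).ne (ne_bot_of_gt hcon)).symm⟩
  rw [ha, EReal.coe_lt_coe_iff] at hcon
  set ε : ℝ := (a - reP P 0) / 2 with hε
  have hε0 : 0 < ε := by rw [hε]; linarith
  -- the tube
  obtain ⟨δ, hδ, hδ1, hδ2⟩ : ∃ δ : ℝ, 0 < δ ∧
      (∀ w ∈ closedBall (0 : ℂ) 1, ∀ σ : V, ‖σ‖ ≤ δ → f w + σ ∈ D) ∧
      ∀ w : ℂ, ‖w‖ = 1 → ∀ σ : V, ‖σ‖ ≤ δ → u (f w + σ) < reP P w := by
    have key : ∀ᶠ σ in 𝓝 (0 : V), ∀ w ∈ closedBall (0 : ℂ) 1,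
        f w + σ ∈ D ∧ (‖w‖ = 1 → u (f w + σ) < reP P w) := by
      have hK : IsCompact (closedBall (0 : ℂ) 1) := isCompact_closedBall _ _
      refine hK.induction_on (p := fun s => ∀ᶠ σ in 𝓝 (0 : V), ∀ w ∈ s ∩ closedBall (0 : ℂ) 1,
        f w + σ ∈ D ∧ (‖w‖ = 1 → u (f w + σ) < reP P w)) (by simp)
        (fun s t hst h => h.mono fun σ hσ w hw => hσ w ⟨hst hw.1, hw.2⟩)
        (fun s t hs ht => (hs.and ht).mono fun σ hσ w hw =>
          hw.1.elim (fun h => hσ.1 w ⟨h, hw.2⟩) fun h => hσ.2 w ⟨h, hw.2⟩)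
        (fun w hw => ?_) |>.mono fun σ hσ w hw => hσ w ⟨hw, hw⟩
      have t : Tendsto (fun p : ℂ × V => f p.1 + p.2) (𝓝[closedBall 0 1] w ×ˢ 𝓝 0) (𝓝 (f w)) := by
        have := ((hfc w hw).tendsto.comp tendsto_fst).add
          (tendsto_snd (f := 𝓝[closedBall 0 1] w) (g := 𝓝 (0 : V)))
        simpa using this
      have e1 := t.eventually (hD.mem_nhds (hm hw))
      have e2 : ∀ᶠ p : ℂ × V in 𝓝[closedBall 0 1] w ×ˢ 𝓝 0,
          ‖p.1‖ = 1 → u (f p.1 + p.2) < reP P p.1 := by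
        by_cases h1 : ‖w‖ = 1
        · obtain ⟨b, hb1, hb2⟩ := EReal.lt_iff_exists_real_btwn.1 (hP w h1)
          have h3 := hu (f w) (hm hw) _ hb1
          rw [hD.nhdsWithin_eq (hm hw)] at h3
          have h4 : ∀ᶠ y in 𝓝[closedBall 0 1] w, b < reP P y :=
            ((reP_cont P).continuousAt.eventually
              (lt_mem_nhds (EReal.coe_lt_coe_iff.1 hb2))).filter_mono nhdsWithin_le_nhds
          filter_upwards [t.eventually h3, tendsto_fst.eventually h4] with p hp1 hp2 _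
          exact hp1.trans (EReal.coe_lt_coe_iff.2 hp2)
        · have h4 : ∀ᶠ y in 𝓝[closedBall 0 1] w, ‖y‖ ≠ 1 :=
            (continuous_norm.continuousAt.eventually_ne h1).filter_mono nhdsWithin_le_nhds
          filter_upwards [tendsto_fst.eventually h4] with p hp h5
          exact absurd h5 hp
      obtain ⟨S, hS, T, hT, h⟩ := eventually_prod_iff.1 (e1.and e2)
      exact ⟨_, hS, hT.mono fun σ hσ y hy => h hy.1 hσ⟩
    obtain ⟨δ, hδ, h⟩ := Metric.nhds_basis_closedBall.eventually_iff.1 key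
    exact ⟨δ, hδ, fun w hw σ hσ => (h (by simpa using hσ) w hw).1,
      fun w hw σ hσ => (h (by simpa using hσ) w (by simp [hw])).2 hw⟩
  set K : Set (ℂ × V) := closedBall 0 1 ×ˢ closedBall 0 δ with hK
  have hKc : IsCompact K := (isCompact_closedBall _ _).prod (isCompact_closedBall _ _)
  have hKm : MapsTo (fun p : ℂ × V => f p.1 + p.2) K D := fun p hp =>
    hδ1 _ hp.1 _ (by simpa using hp.2)
  have hU : UpperSemicontinuousOn (fun p : ℂ × V => u (f p.1 + p.2)) K :=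
    hu.comp ((hfc.comp continuousOn_fst fun p hp => hp.1).add continuousOn_snd) hKm
  have husc : ∀ c : ℂ × V → ℝ, Continuous c →
      UpperSemicontinuousOn (fun p : ℂ × V => u (f p.1 + p.2) + (c p : ℝ)) K := fun c hc =>
    usc_add hU (usc_coe hc.continuousOn) (fun p hp => ht _ (hKm hp)) fun p _ => EReal.coe_lt_top _
  have hPc := reP_cont P
  obtain ⟨C, hC⟩ := exists_bound hKc (husc (fun p => -reP P p.1) (by fun_prop))
    fun p hp => add_lt_top' (ht _ (hKm hp)) (EReal.coe_lt_top _)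
  set κ : ℝ := (|C| + 1) / δ ^ 2 with hκ
  have hκ0 : 0 < κ := by positivity
  set c : ℂ × V → ℝ := fun p => -reP P p.1 + ε * (‖p.1‖ ^ 2 - 1) - κ * ‖p.2‖ ^ 2 with hc
  have h00 : ((0 : ℂ), (0 : V)) ∈ K := ⟨h0, by simp [hδ.le]⟩
  obtain ⟨⟨w0, σ0⟩, hp0, hmax⟩ := (husc c (by fun_prop)).exists_isMaxOn ⟨_, h00⟩ hKc
  have hx0 : f w0 + σ0 ∈ D := hKm hp0
  have hge : ((ε : ℝ) : EReal) ≤ u (f w0 + σ0) + (c (w0, σ0) : ℝ) := by
    refine le_trans (le_of_eq ?_) (hmax h00)
    simp only [add_zero, ha, hc, norm_zero]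
    rw [← EReal.coe_add]; congr 1; rw [hε]; ring
  obtain ⟨b, hb⟩ : ∃ b : ℝ, u (f w0 + σ0) = b := by
    refine ⟨_, (EReal.coe_toReal (ht _ hx0).ne fun h => ?_).symm⟩
    rw [h, EReal.bot_add] at hge
    exact absurd hge (by simp)
  rw [hb, ← EReal.coe_add, EReal.coe_le_coe_iff] at hge
  have hw0 : ‖w0‖ ≤ 1 := by simpa using hp0.1
  have hσ0 : ‖σ0‖ ≤ δ := by simpa using hp0.2
  have hw1 : ‖w0‖ < 1 := by
    refine lt_of_le_of_ne hw0 fun h => ?_
    have := hδ2 w0 h σ0 hσ0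
    rw [hb, EReal.coe_lt_coe_iff] at this
    simp only [hc, h] at hge
    nlinarith [mul_nonneg hκ0.le (sq_nonneg ‖σ0‖)]
  have hσ1 : ‖σ0‖ < δ := by
    refine lt_of_le_of_ne hσ0 fun h => ?_
    have h1 := hC _ hp0
    simp only [hb] at h1
    rw [← EReal.coe_add, EReal.coe_le_coe_iff] at h1
    have h2 : κ * δ ^ 2 = |C| + 1 := by rw [hκ]; field_simp
    have h3 : ‖w0‖ ^ 2 ≤ 1 := by nlinarith [norm_nonneg w0]
    simp only [hc, h, h2] at hge
    nlinarith [le_abs_self C, mul_nonneg hε0.le (sub_nonneg.2 h3)]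
  have hle : ∀ p ∈ K, u (f p.1 + p.2) ≤ ((b + c (w0, σ0) - c p : ℝ) : EReal) := fun p hp => by
    rw [← add_coe_le_iff, EReal.coe_add, ← hb]; exact hmax hp
  -- the tangent disc
  have hb0 : w0 ∈ ball (0 : ℂ) 1 := by simpa using hw1
  have hd : HasDerivAt f (deriv f w0) w0 :=
    (hf.differentiableOn.differentiableAt (isOpen_ball.mem_nhds hb0)).hasDerivAt
  set v := deriv f w0 with hv
  set r : ℂ → V := fun ζ => f (w0 + ζ) - f w0 - ζ • v with hr
  obtain ⟨η, hη0, hη1, hη⟩ : ∃ η : ℝ, 0 < η ∧ η ≤ 1 ∧ κ * η ^ 2 ≤ ε / 2 := by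
    refine ⟨min 1 (ε / 2 / κ), by positivity, min_le_left _ _, ?_⟩
    have h1 : min 1 (ε / 2 / κ) ^ 2 ≤ 1 * (ε / 2 / κ) := by
      rw [sq]
      exact mul_le_mul (min_le_left _ _) (min_le_right _ _) (by positivity) zero_le_one
    calc κ * min 1 (ε / 2 / κ) ^ 2 ≤ κ * (1 * (ε / 2 / κ)) := by gcongr
      _ = ε / 2 := by field_simp
  have hsm : ∀ᶠ ζ in 𝓝 (0 : ℂ), ‖r ζ‖ ≤ η * ‖ζ‖ :=
    (hasDerivAt_iff_isLittleO_nhds_zero.1 hd).def hη0
  obtain ⟨δ1, hδ10, hδ1'⟩ := Metric.eventually_nhds_iff.1 hsm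
  obtain ⟨ρ, hρ0, hρ, hsub⟩ := hl _ hx0 v (min δ1 (min (1 - ‖w0‖) (δ - ‖σ0‖)))
    (lt_min hδ10 (lt_min (by linarith) (by linarith)))
  simp only [lt_min_iff] at hρ
  obtain ⟨hρ1, hρ2, hρ3⟩ := hρ
  have hn : ∀ w : ℂ, ‖w‖ ≤ 1 → ‖w * ρ‖ ≤ ρ := fun w hw => by
    rw [norm_mul, Complex.norm_real, Real.norm_of_nonneg hρ0.le]; nlinarith [norm_nonneg w]
  have hin : ∀ w : ℂ, ‖w‖ ≤ 1 → ‖w0 + w * ρ‖ < 1 := fun w hw =>
    (norm_add_le _ _).trans_lt (by linarith [hn w hw])
  set H : ℂ → ℂ := fun w => ((b - ε / 2 * ρ ^ 2 - reP P w0 : ℝ) : ℂ) + P.eval (w0 + w * ρ) -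
    2 * ε * ((starRingEnd ℂ) w0 * (w * ρ)) - 2 * κ * ⟪σ0, r (w * ρ)⟫_ℂ with hH
  have hrd : DifferentiableOn ℂ (fun w : ℂ => r (w * ρ)) (closedBall 0 1) := by
    refine (DifferentiableOn.sub_const ?_ _).sub (by fun_prop)
    exact hf.differentiableOn.comp (by fun_prop) fun w hw =>
      mem_ball_zero_iff.2 (hin w (by simpa using hw))
  have hHd : DifferentiableOn ℂ H (closedBall 0 1) := by
    refine (((differentiableOn_const _).add ?_).sub (by fun_prop)).sub
      (DifferentiableOn.const_mul ?_ _)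
    · exact (P.differentiable.comp (by fun_prop)).differentiableOn
    · exact (innerSL ℂ σ0).differentiable.comp_differentiableOn hrd
  have hfin := hsub.re (H := H) (DifferentiableOn.diffContOnCl
    (by rwa [closure_ball _ one_ne_zero])) fun w hw => ?_
  · rw [hb, EReal.coe_le_coe_iff] at hfin
    simp only [hH, hr, zero_mul, add_zero, sub_self, zero_smul, inner_zero_right, mul_zero,
      sub_zero, Complex.add_re, Complex.ofReal_re] at hfin
    have : 0 < ε / 2 * ρ ^ 2 := by positivity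
    unfold reP at hfin
    linarith
  have hnw : ‖w * ρ‖ = ρ := by
    rw [norm_mul, hw, one_mul, Complex.norm_real, Real.norm_of_nonneg hρ0.le]
  have hr1 : ‖r (w * ρ)‖ ≤ η * ρ := by
    have := hδ1' (y := w * ρ) (by rw [dist_zero_right, hnw]; exact hρ1)
    rwa [hnw] at this
  have hpK : (w0 + w * ρ, σ0 - r (w * ρ)) ∈ K := by
    refine ⟨mem_closedBall_zero_iff.2 (hin w hw.le).le, mem_closedBall_zero_iff.2 ?_⟩
    refine (norm_sub_le _ _).trans ?_
    nlinarith
  have e : f w0 + σ0 + w • (ρ : ℂ) • v = f (w0 + w * ρ) + (σ0 - r (w * ρ)) := by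
    simp only [hr, smul_smul]; abel
  rw [e]
  refine (hle _ hpK).trans (EReal.coe_le_coe_iff.2 ?_)
  have e1 : ‖w0 + w * ρ‖ ^ 2 =
      ‖w0‖ ^ 2 + 2 * ((starRingEnd ℂ) w0 * (w * ρ)).re + ρ ^ 2 := by
    rw [@norm_add_sq ℂ, hnw]
    simp [mul_comm]
  have e2 : ‖σ0 - r (w * ρ)‖ ^ 2 =
      ‖σ0‖ ^ 2 - 2 * (⟪σ0, r (w * ρ)⟫_ℂ).re + ‖r (w * ρ)‖ ^ 2 := by
    rw [@norm_sub_sq ℂ]; rfl
  have e3 : κ * ‖r (w * ρ)‖ ^ 2 ≤ ε / 2 * ρ ^ 2 := by
    calc κ * ‖r (w * ρ)‖ ^ 2 ≤ κ * (η * ρ) ^ 2 := by gcongr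
      _ = κ * η ^ 2 * ρ ^ 2 := by ring
      _ ≤ ε / 2 * ρ ^ 2 := by gcongr
  have e4 : (H w).re = b - ε / 2 * ρ ^ 2 - reP P w0 + reP P (w0 + w * ρ) -
      2 * ε * ((starRingEnd ℂ) w0 * (w * ρ)).re - 2 * κ * (⟪σ0, r (w * ρ)⟫_ℂ).re := by
    simp only [hH, Complex.sub_re, Complex.add_re, Complex.ofReal_re, reP]
    rw [show (2 * ε : ℂ) = ((2 * ε : ℝ) : ℂ) by push_cast; ring,
      show (2 * κ : ℂ) = ((2 * κ : ℝ) : ℂ) by push_cast; ring, Complex.re_ofReal_mul,
      Complex.re_ofReal_mul]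
  rw [e4]
  simp only [hc]
  rw [e1, e2]
  nlinarith

end core

/-- transport of `LSub` by a linear map -/
theorem LSub.comp_affine {F : Type*} [NormedAddCommGroup F] [NormedSpace ℂ F] {D : Set E}
    {u : E → EReal} (h : LSub D u) (L : F →L[ℂ] E) (b : E) :
    LSub ((fun y => b + L y) ⁻¹' D) fun y => u (b + L y) := by
  intro z hz v δ hδ
  obtain ⟨ρ, h1, h2, h3⟩ := h _ hz (L v) δ hδ
  refine ⟨ρ, h1, h2, fun g hg hle => h3 g hg fun w hw => ?_⟩
  have := hle w hw
  simpa only [map_add, map_smul, add_assoc] using this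

/-- **sub-mean value property on holomorphic discs** -/
theorem disc_le' [FiniteDimensional ℂ E] {D : Set E} (hD : IsOpen D) {u : E → EReal}
    (hu : UpperSemicontinuousOn u D) (ht : ∀ x ∈ D, u x < ⊤) (hl : LSub D u) {f : ℂ → E}
    (hf : DiffContOnCl ℂ f (ball 0 1)) (hm : MapsTo f (closedBall 0 1) D)
    {g : ℂ → ℝ} (hg : Continuous g) (hle : ∀ w : ℂ, ‖w‖ = 1 → u (f w) ≤ g w) :
    u (f 0) ≤ (Real.circleAverage g 0 1 : ℝ) := by
  let e : E ≃L[ℂ] EuclideanSpace ℂ (Fin (Module.finrank ℂ E)) :=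
    ContinuousLinearEquiv.ofFinrankEq (by simp)
  let L := e.symm.toContinuousLinearMap
  have hL : ∀ x, 0 + L (e x) = x := fun x => by simp [L]
  have hc : Continuous fun y => (0 : E) + L y := by fun_prop
  refine le_avg_of_poly (F := fun w => u (f w)) (fun P hP => ?_) hg hle
  have := core (D := (fun y => (0 : E) + L y) ⁻¹' D) (hD.preimage hc)
    (u := fun y => u (0 + L y)) (hu.comp hc.continuousOn fun y hy => hy)
    (fun y hy => ht _ hy) (hl.comp_affine _ _) (f := fun w => e (f w))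
    (e.differentiable.comp_diffContOnCl hf)
    (fun w hw => by simpa only [mem_preimage, hL] using hm hw) P (by simpa only [hL] using hP)
  simpa only [hL] using this

theorem disc_le [FiniteDimensional ℂ E] {D : Set E} (hD : IsOpen D) {u : E → EReal}
    (hu : IsPsh D u) {f : ℂ → E} (hf : DiffContOnCl ℂ f (ball 0 1))
    (hm : MapsTo f (closedBall 0 1) D) {g : ℂ → ℝ} (hg : Continuous g)
    (hle : ∀ w : ℂ, ‖w‖ = 1 → u (f w) ≤ g w) : u (f 0) ≤ (Real.circleAverage g 0 1 : ℝ) :=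
  disc_le' hD hu.usc hu.lt_top (lsub_of_sub hD hu.sub) hf hm hg hle

/-- **pull-back by a holomorphic map** -/
theorem comp_hol [FiniteDimensional ℂ E] {F : Type*} [NormedAddCommGroup F] [NormedSpace ℂ F]
    {D : Set E} (hD : IsOpen D) {u : E → EReal} (hu : IsPsh D u) {D' : Set F} {φ : F → E}
    (hφ : DifferentiableOn ℂ φ D') (hm : MapsTo φ D' D) : IsPsh D' fun y => u (φ y) := by
  refine ⟨hu.usc.comp hφ.continuousOn hm, fun y hy => hu.lt_top _ (hm hy),
    fun z v hz g hg hle => ?_⟩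
  have hm' : MapsTo (fun w : ℂ => z + w • v) (closedBall 0 1) D' := fun w hw =>
    hz w (by simpa using hw)
  have hd : DifferentiableOn ℂ (fun w : ℂ => φ (z + w • v)) (closure (ball 0 1)) := by
    rw [closure_ball _ one_ne_zero]
    exact hφ.comp (by fun_prop) hm'
  simpa using disc_le hD hu hd.diffContOnCl (fun w hw => hm (hm' hw)) hg hle

/-- **small circles suffice** -/
theorem of_lsub {D : Set E} (hD : IsOpen D) {u : E → EReal} (hu : UpperSemicontinuousOn u D)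
    (ht : ∀ x ∈ D, u x < ⊤) (hl : LSub D u) : IsPsh D u := by
  refine ⟨hu, ht, fun z v hz g hg hle => ?_⟩
  let L : ℂ →L[ℂ] E := (ContinuousLinearMap.id ℂ ℂ).smulRight v
  have hc : Continuous fun y => z + L y := by fun_prop
  have := disc_le' (hD.preimage hc) (u := fun y => u (z + L y))
    (hu.comp hc.continuousOn fun y hy => hy) (fun y hy => ht _ hy) (hl.comp_affine L z)
    (f := id) differentiable_id.diffContOnCl (fun w hw => hz w (by simpa using hw)) hg hle
  simpa using this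




/-- real parts of holomorphic functions -/
theorem isPsh_re {D : Set E} {H : E → ℂ} (hH : DifferentiableOn ℂ H D) :
    IsPsh D fun x => ((H x).re : ℝ) := by
  refine ⟨usc_coe (Complex.continuous_re.comp_continuousOn hH.continuousOn),
    fun _ _ => EReal.coe_lt_top _, fun z v hz g hg hle => EReal.coe_le_coe_iff.2 ?_⟩
  have hm' : MapsTo (fun w : ℂ => z + w • v) (closedBall 0 1) D := fun w hw =>
    hz w (by simpa using hw)
  have hd : DifferentiableOn ℂ (fun w : ℂ => H (z + w • v)) (closedBall 0 1) :=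
    hH.comp (by fun_prop) hm'
  have h1 := mean_re (H := fun w : ℂ => H (z + w • v))
    (DifferentiableOn.diffContOnCl (by rwa [closure_ball _ one_ne_zero]))
  simp only [zero_smul, add_zero] at h1
  rw [← h1]
  refine Real.circleAverage_mono (ContinuousOn.circleIntegrable zero_le_one
    (Complex.continuous_re.comp_continuousOn (hd.continuousOn.mono sphere_subset_closedBall)))
    (cint hg) fun w hw => EReal.coe_le_coe_iff.1 (hle w (by simpa using hw))

/-- maximum principle for the real part on the closed unit disc -/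
theorem reP_le {P : Polynomial ℂ} {c : ℝ} (h : ∀ w : ℂ, ‖w‖ = 1 → reP P w ≤ c) {w : ℂ}
    (hw : ‖w‖ ≤ 1) : reP P w ≤ c := by
  have h1 : DiffContOnCl ℂ (fun z => Complex.exp (P.eval z)) (ball 0 1) :=
    P.differentiable.cexp.diffContOnCl
  have := Complex.norm_le_of_forall_mem_frontier_norm_le isBounded_ball h1 (C := Real.exp c)
    (fun z hz => by
      rw [frontier_ball _ one_ne_zero] at hz
      rw [Complex.norm_exp]
      exact Real.exp_le_exp.2 (h z (by simpa using hz)))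
    (z := w) (by rw [closure_ball _ one_ne_zero]; simpa using hw)
  rw [Complex.norm_exp] at this
  exact Real.exp_le_exp.1 this

theorem le_reP {P : Polynomial ℂ} {c : ℝ} (h : ∀ w : ℂ, ‖w‖ = 1 → c ≤ reP P w) {w : ℂ}
    (hw : ‖w‖ ≤ 1) : c ≤ reP P w := by
  have e : ∀ w, reP (-P) w = -reP P w := fun w => by simp [reP]
  have := reP_le (P := -P) (c := -c) (fun w hw => by rw [e]; linarith [h w hw]) hw
  rw [e] at this; linarith

end Crest.Agent.X261.Psh.Hol
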