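import Crest.Agent.R275.FLBasic_884

/-!
# Row 261, package PSH (helper78), file `Defs`

Plurisubharmonic functions with values in `[-∞, ∞)` on subsets of a complex normed space.
The sub-mean value property is stated against continuous majorants on the boundary circle
(`Sub`), so that no measurability or integrability appears in the definition.

* `IsPsh D u`; `rlim l u` relaxed upper limit of a family (contains the upper semicontinuous
  regularisation, the regularised supremum and limits along filters);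
* `exists_cont_seq` : usc functions on compact sets are decreasing limits of continuous ones;
* closure: `mono, congr, const, sup, add, smul, iInf_directed, comp_affine, rlim`;
* `hartogs` : Hartogs' lemma.
-/

set_option autoImplicit false
set_option linter.dupNamespace false

open Set Filter Topology Metric
open scoped ENNReal

noncomputable section

namespace Crest.Agent.X261.Psh

open Crest.Agent.R275.FL884 (DiscIn)

/-! ### `EReal` helpers -/

theorem le_coe_of_forall {a : EReal} {b : ℝ} (h : ∀ ε : ℝ, 0 < ε → a ≤ ((b + ε : ℝ) : EReal)) :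
    a ≤ b := by
  induction a with
  | bot => exact bot_le
  | top => exact absurd (h 1 one_pos) (EReal.coe_lt_top _).not_ge
  | coe a =>
    refine EReal.coe_le_coe_iff.2 (le_of_forall_pos_le_add fun ε hε => ?_)
    exact EReal.coe_le_coe_iff.1 (h ε hε)

theorem lt_coe_add {a : EReal} {b ε : ℝ} (h : a ≤ b) (hε : 0 < ε) : a < ((b + ε : ℝ) : EReal) :=
  h.trans_lt (EReal.coe_lt_coe_iff.2 (by linarith))

theorem add_le_coe {a b : EReal} {x y : ℝ} (ha : a ≤ x) (hb : b ≤ y) :
    a + b ≤ ((x + y : ℝ) : EReal) := by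
  rw [EReal.coe_add]; exact add_le_add ha hb

theorem add_lt_top' {a b : EReal} (ha : a < ⊤) (hb : b < ⊤) : a + b < ⊤ :=
  EReal.add_lt_top ha.ne hb.ne

theorem exists_real_ge {a : EReal} (ha : a < ⊤) : ∃ c : ℝ, a ≤ c := by
  obtain ⟨c, h1, -⟩ := EReal.lt_iff_exists_real_btwn.1 ha
  exact ⟨c, h1.le⟩

theorem coe_mul_le {a : EReal} {c x : ℝ} (hc : 0 ≤ c) (h : a ≤ x) :
    (c : EReal) * a ≤ ((c * x : ℝ) : EReal) := by
  rw [EReal.coe_mul]
  exact mul_le_mul_of_nonneg_left h (EReal.coe_nonneg.2 hc)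

theorem le_of_coe_mul_le {a : EReal} {c x : ℝ} (hc : 0 < c) (h : (c : EReal) * a ≤ x) :
    a ≤ ((x / c : ℝ) : EReal) := by
  induction a with
  | bot => exact bot_le
  | top => rw [EReal.coe_mul_top_of_pos hc] at h; exact absurd h (by simp)
  | coe a =>
    rw [← EReal.coe_mul, EReal.coe_le_coe_iff] at h
    rw [EReal.coe_le_coe_iff, le_div_iff₀ hc]
    linarith

theorem lt_of_coe_mul_lt {a : EReal} {c x : ℝ} (hc : 0 < c) (h : (c : EReal) * a < x) :
    a < ((x / c : ℝ) : EReal) := by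
  induction a with
  | bot => exact EReal.bot_lt_coe _
  | top => rw [EReal.coe_mul_top_of_pos hc] at h; exact absurd h (by simp)
  | coe a =>
    rw [← EReal.coe_mul, EReal.coe_lt_coe_iff] at h
    rw [EReal.coe_lt_coe_iff, lt_div_iff₀ hc]
    linarith

theorem coe_mul_lt {a : EReal} {c x : ℝ} (hc : 0 < c) (h : a < x) :
    (c : EReal) * a < ((c * x : ℝ) : EReal) := by
  induction a with
  | bot => rw [EReal.coe_mul_bot_of_pos hc]; exact EReal.bot_lt_coe _
  | top => exact absurd h (by simp)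
  | coe a =>
    rw [← EReal.coe_mul, EReal.coe_lt_coe_iff]
    exact mul_lt_mul_of_pos_left (EReal.coe_lt_coe_iff.1 h) hc

theorem add_coe_le_iff {a : EReal} {x y : ℝ} : a + x ≤ y ↔ a ≤ ((y - x : ℝ) : EReal) := by
  induction a with
  | bot => simp
  | top => simp [-EReal.coe_sub]
  | coe a => rw [← EReal.coe_add, EReal.coe_le_coe_iff, EReal.coe_le_coe_iff, le_sub_iff_add_le]

theorem add_coe_lt_iff {a : EReal} {x y : ℝ} : a + x < y ↔ a < ((y - x : ℝ) : EReal) := by
  induction a with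
  | bot => simp [-EReal.coe_sub]
  | top => simp
  | coe a => rw [← EReal.coe_add, EReal.coe_lt_coe_iff, EReal.coe_lt_coe_iff, lt_sub_iff_add_lt]

/-- truncation from below, as a real number -/
def tr (c : ℝ) (a : EReal) : ℝ := (max a c).toReal

theorem coe_tr {c : ℝ} {a : EReal} (ha : a < ⊤) : (tr c a : EReal) = max a c :=
  EReal.coe_toReal (max_lt ha (EReal.coe_lt_top c)).ne
    ((EReal.bot_lt_coe c).trans_le (le_max_right _ _)).ne'

theorem le_tr {c : ℝ} {a : EReal} (ha : a < ⊤) : a ≤ tr c a := by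
  rw [coe_tr ha]; exact le_max_left _ _

theorem le_tr' {c : ℝ} {a : EReal} (ha : a < ⊤) : c ≤ tr c a := by
  rw [← EReal.coe_le_coe_iff, coe_tr ha]; exact le_max_right _ _

theorem tr_le {c x : ℝ} {a : EReal} (ha : a ≤ x) (hc : c ≤ x) : tr c a ≤ x := by
  rw [← EReal.coe_le_coe_iff, coe_tr (ha.trans_lt (EReal.coe_lt_top x))]
  exact max_le ha (EReal.coe_le_coe_iff.2 hc)

theorem tr_mono {c c' : ℝ} {a a' : EReal} (ha' : a' < ⊤) (ha : a ≤ a') (hc : c ≤ c') :
    tr c a ≤ tr c' a' :=
  tr_le (ha.trans (le_tr ha')) (hc.trans (le_tr' ha'))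


/-! ### upper semicontinuous functions on compact sets -/

section usc

variable {X : Type*}

theorem usc_coe [TopologicalSpace X] {K : Set X} {g : X → ℝ} (hg : ContinuousOn g K) :
    UpperSemicontinuousOn (fun x => (g x : EReal)) K :=
  (continuous_coe_real_ereal.comp_continuousOn hg).upperSemicontinuousOn

theorem usc_add [TopologicalSpace X] {K : Set X} {f g : X → EReal}
    (hf : UpperSemicontinuousOn f K) (hg : UpperSemicontinuousOn g K)
    (hf' : ∀ x ∈ K, f x < ⊤) (hg' : ∀ x ∈ K, g x < ⊤) :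
    UpperSemicontinuousOn (fun x => f x + g x) K :=
  hf.add' hg fun x hx =>
    EReal.continuousAt_add (Or.inl (hf' x hx).ne) (Or.inr (hg' x hx).ne)

theorem usc_smul [TopologicalSpace X] {K : Set X} {f : X → EReal}
    (hf : UpperSemicontinuousOn f K) {c : ℝ} (hc : 0 ≤ c) :
    UpperSemicontinuousOn (fun x => (c : EReal) * f x) K := by
  rcases hc.eq_or_lt with rfl | hc
  · simpa using upperSemicontinuousOn_const
  intro x hx y hy
  obtain ⟨b, h1, h2⟩ := EReal.lt_iff_exists_real_btwn.1 hy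
  filter_upwards [hf x hx _ (lt_of_coe_mul_lt hc h1)] with z hz
  have := coe_mul_lt hc hz
  rw [mul_div_cancel₀ _ hc.ne'] at this
  exact this.trans h2

/-- `f < g` is an open condition for `f` usc and `g` continuous -/
theorem ev_lt [TopologicalSpace X] {K : Set X} {f : X → EReal} {g : X → ℝ} {x : X}
    (hf : UpperSemicontinuousWithinAt f K x) (hg : ContinuousWithinAt g K x)
    (h : f x < g x) : ∀ᶠ y in 𝓝[K] x, f y < g y := by
  obtain ⟨b, h1, h2⟩ := EReal.lt_iff_exists_real_btwn.1 h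
  filter_upwards [hf _ h1, hg.eventually (lt_mem_nhds (EReal.coe_lt_coe_iff.1 h2))] with y h3 h4
  exact h3.trans (EReal.coe_lt_coe_iff.2 h4)

theorem exists_bound [TopologicalSpace X] {K : Set X} (hK : IsCompact K) {f : X → EReal}
    (hf : UpperSemicontinuousOn f K) (hf' : ∀ x ∈ K, f x < ⊤) : ∃ C : ℝ, ∀ x ∈ K, f x ≤ C := by
  rcases K.eq_empty_or_nonempty with rfl | hne
  · exact ⟨0, by simp⟩
  obtain ⟨x, hx, hm⟩ := hf.exists_isMaxOn hne hK
  obtain ⟨c, hc⟩ := exists_real_ge (hf' x hx)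
  exact ⟨c, fun y hy => (hm hy).trans hc⟩

/-- Dini's lemma for a directed family of usc functions -/
theorem dini [TopologicalSpace X] {K : Set X} (hK : IsCompact K) {ι : Type*} [Nonempty ι]
    {f : ι → X → EReal} (hf : ∀ i, UpperSemicontinuousOn (f i) K)
    (hd : ∀ i j, ∃ k, ∀ x ∈ K, f k x ≤ f i x ∧ f k x ≤ f j x) {g : X → ℝ}
    (hg : ContinuousOn g K) (h : ∀ x ∈ K, ∃ i, f i x < g x) : ∃ i, ∀ x ∈ K, f i x < g x := by
  have key := hK.induction_on (p := fun s => ∃ i, ∀ x ∈ s ∩ K, f i x < g x)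
    ⟨Classical.arbitrary ι, by simp⟩
    (fun s t hst ⟨i, hi⟩ => ⟨i, fun x hx => hi x ⟨hst hx.1, hx.2⟩⟩)
    (fun s t ⟨i, hi⟩ ⟨j, hj⟩ => by
      obtain ⟨k, hk⟩ := hd i j
      refine ⟨k, fun x hx => ?_⟩
      rcases hx.1 with h1 | h1
      · exact (hk x hx.2).1.trans_lt (hi x ⟨h1, hx.2⟩)
      · exact (hk x hx.2).2.trans_lt (hj x ⟨h1, hx.2⟩))
    (fun x hx => by
      obtain ⟨i, hi⟩ := h x hx
      exact ⟨_, ev_lt (hf i x hx) (hg x hx) hi, i, fun y hy => hy.1⟩)
  obtain ⟨i, hi⟩ := key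
  exact ⟨i, fun x hx => hi x ⟨hx, hx⟩⟩

/-- a usc function on a compact set is a decreasing limit of continuous functions -/
theorem exists_cont_seq [PseudoMetricSpace X] {K : Set X} (hK : IsCompact K) {f : X → EReal}
    (hf : UpperSemicontinuousOn f K) (hf' : ∀ x ∈ K, f x < ⊤) :
    ∃ g : ℕ → X → ℝ, (∀ k, Continuous (g k)) ∧ (∀ x, Antitone fun k => g k x) ∧
      (∀ k, ∀ x ∈ K, f x ≤ g k x) ∧
      ∀ x ∈ K, ∀ a : ℝ, f x < a → ∀ᶠ k in atTop, g k x < a := by
  rcases K.eq_empty_or_nonempty with rfl | hne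
  · exact ⟨fun _ _ => 0, fun _ => continuous_const, fun _ _ _ _ => le_rfl, by simp, by simp⟩
  obtain ⟨C, hC⟩ := exists_bound hK hf hf'
  have : Nonempty K := hne.to_subtype
  set C' : ℝ := max C 0 with hC'
  have hb : ∀ (k : ℕ) (y : K), tr (-k) (f y) ≤ C' := fun k y =>
    tr_le ((hC y y.2).trans (EReal.coe_le_coe_iff.2 (le_max_left _ _)))
      (le_trans (by simp) (le_max_right _ _))
  set g : ℕ → X → ℝ := fun k x => ⨆ y : K, (tr (-k) (f y) - k * dist x y) with hg
  have hbd : ∀ (k : ℕ) (x : X), BddAbove (range fun y : K => tr (-k) (f y) - k * dist x y) := by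
    intro k x
    refine ⟨C', ?_⟩
    rintro _ ⟨y, rfl⟩
    have := hb k y
    have h2 : 0 ≤ (k : ℝ) * dist x y := by positivity
    linarith
  have hle : ∀ (k : ℕ) (x : X) (y : K), tr (-k) (f y) - k * dist x y ≤ g k x := fun k x y =>
    le_ciSup (hbd k x) y
  refine ⟨g, fun k => ?_, fun x k k' hkk' => ?_, fun k x hx => ?_, fun x hx a ha => ?_⟩
  · have : LipschitzWith k (g k) := by
      refine LipschitzWith.of_le_add_mul _ fun x x' => ciSup_le fun y => ?_
      have h1 := hle k x' y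
      have h2 : dist x' y ≤ dist x y + dist x x' := by
        rw [dist_comm x x', add_comm]; exact dist_triangle _ _ _
      have h3 : (k : ℝ) * dist x' y ≤ k * (dist x y + dist x x') := by gcongr
      simp only [NNReal.coe_natCast]
      linarith
    exact this.continuous
  · refine ciSup_le fun y => le_trans ?_ (hle k x y)
    have hk : (k : ℝ) ≤ k' := by exact_mod_cast hkk'
    have h1 : tr (-k') (f y) ≤ tr (-k) (f y) := tr_mono (hf' y y.2) le_rfl (by linarith)
    have h2 : (k : ℝ) * dist x y ≤ k' * dist x y := by gcongr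
    linarith
  · refine (le_tr (c := -k) (hf' x hx)).trans (EReal.coe_le_coe_iff.2 ?_)
    simpa using hle k x ⟨x, hx⟩
  · obtain ⟨b, h1, h2⟩ := EReal.lt_iff_exists_real_btwn.1 ha
    have h2' : b < a := EReal.coe_lt_coe_iff.1 h2
    obtain ⟨δ, hδ, hδ'⟩ := Metric.mem_nhdsWithin_iff.1 (hf x hx _ h1)
    have t1 : ∀ᶠ k : ℕ in atTop, -b ≤ (k : ℝ) :=
      tendsto_natCast_atTop_atTop.eventually_ge_atTop _
    have t2 : ∀ᶠ k : ℕ in atTop, (C' - b) / δ ≤ (k : ℝ) :=
      tendsto_natCast_atTop_atTop.eventually_ge_atTop _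
    filter_upwards [t1, t2] with k hk1 hk2
    refine lt_of_le_of_lt (ciSup_le fun y => ?_) h2'
    have h0 : 0 ≤ (k : ℝ) * dist x y := by positivity
    by_cases hy : dist (y : X) x < δ
    · have : tr (-k) (f y) ≤ b := tr_le (le_of_lt (hδ' ⟨hy, y.2⟩)) (by linarith)
      linarith
    · rw [not_lt, dist_comm] at hy
      rw [div_le_iff₀ hδ] at hk2
      have h3 : (k : ℝ) * δ ≤ k * dist x y := by gcongr
      have := hb k y
      linarith

end usc

/-! ### the class -/

variable {E : Type*} [NormedAddCommGroup E] [NormedSpace ℂ E]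

/-- sub-mean value property on closed discs in `D`, against continuous majorants -/
def Sub (D : Set E) (u : E → EReal) : Prop :=
  ∀ z v : E, DiscIn D z v → ∀ g : ℂ → ℝ, Continuous g →
    (∀ w : ℂ, ‖w‖ = 1 → u (z + w • v) ≤ g w) → u z ≤ (Real.circleAverage g 0 1 : ℝ)

/-- plurisubharmonic functions with values in `[-∞, ∞)` (`≡ -∞` is allowed) -/
structure IsPsh (D : Set E) (u : E → EReal) : Prop where
  usc : UpperSemicontinuousOn u D
  lt_top : ∀ x ∈ D, u x < ⊤
  sub : Sub D u

/-- relaxed upper limit of the family `u` along `l`: `limsup_{i → l, y → x} u i y` -/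
def rlim {ι X : Type*} [TopologicalSpace X] (l : Filter ι) (u : ι → X → EReal) (x : X) : EReal :=
  limsup (fun p : ι × X => u p.1 p.2) (l ×ˢ 𝓝 x)

/-- `C - a` as an element of `[0, ∞]` -/
def cst (C : ℝ) (a : EReal) : ℝ≥0∞ := ((C : EReal) - a).toENNReal

theorem cint {g : ℂ → ℝ} (hg : Continuous g) : CircleIntegrable g 0 1 :=
  hg.continuousOn.circleIntegrable zero_le_one

theorem avg_add_const {g : ℂ → ℝ} (hg : Continuous g) (c : ℝ) :
    Real.circleAverage (fun w => g w + c) 0 1 = Real.circleAverage g 0 1 + c := by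
  rw [Real.circleAverage_fun_add (cint hg) (cint continuous_const), Real.circleAverage_const]

theorem avg_mono {g g' : ℂ → ℝ} (hg : Continuous g) (hg' : Continuous g')
    (h : ∀ w : ℂ, ‖w‖ = 1 → g w ≤ g' w) :
    Real.circleAverage g 0 1 ≤ Real.circleAverage g' 0 1 :=
  Real.circleAverage_mono (cint hg) (cint hg') fun w hw => h w (by simpa using hw)

theorem avg_const_mul (g : ℂ → ℝ) (c : ℝ) :
    Real.circleAverage (fun w => c * g w) 0 1 = c * Real.circleAverage g 0 1 :=
  Real.circleAverage_fun_smul (a := c) (f := g)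

theorem continuous_disc (z v : E) : Continuous fun w : ℂ => z + w • v := by fun_prop

theorem disc_circle {D : Set E} {z v : E} (h : DiscIn D z v) {w : ℂ} (hw : ‖w‖ = 1) :
    z + w • v ∈ D := h w hw.le

theorem mapsTo_sphere {D : Set E} {z v : E} (h : DiscIn D z v) :
    MapsTo (fun w : ℂ => z + w • v) (sphere 0 1) D := fun w hw =>
  disc_circle h (by simpa using hw)

theorem usc_circle {D : Set E} {u : E → EReal} (hu : UpperSemicontinuousOn u D) {z v : E}
    (h : DiscIn D z v) : UpperSemicontinuousOn (fun w : ℂ => u (z + w • v)) (sphere 0 1) :=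
  hu.comp (continuous_disc z v).continuousOn (mapsTo_sphere h)

/-- it is enough to test strict majorants -/
theorem Sub.of_lt {D : Set E} {u : E → EReal}
    (h : ∀ z v : E, DiscIn D z v → ∀ g : ℂ → ℝ, Continuous g →
      (∀ w : ℂ, ‖w‖ = 1 → u (z + w • v) < g w) → u z ≤ (Real.circleAverage g 0 1 : ℝ)) :
    Sub D u := by
  intro z v hD g hg hle
  refine le_coe_of_forall fun ε hε => ?_
  rw [← avg_add_const hg]
  exact h z v hD _ (hg.add continuous_const) fun w hw => lt_coe_add (hle w hw) hε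

theorem Sub.mono {D D' : Set E} {u : E → EReal} (h : Sub D u) (hD : D' ⊆ D) : Sub D' u :=
  fun z v hz => h z v (hz.mono hD)

theorem Sub.congr {D : Set E} {u u' : E → EReal} (h : Sub D u) (he : EqOn u u' D) :
    Sub D u' := by
  intro z v hz g hg hle
  rw [← he hz.center]
  exact h z v hz g hg fun w hw => by rw [he (disc_circle hz hw)]; exact hle w hw

theorem Sub.iSup {ι : Sort*} {D : Set E} {u : ι → E → EReal} (h : ∀ i, Sub D (u i)) :
    Sub D fun x => ⨆ i, u i x := fun z v hz g hg hle =>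
  iSup_le fun i => h i z v hz g hg fun w hw => (le_iSup (fun i => u i _) i).trans (hle w hw)

theorem Sub.le_const {D : Set E} {u : E → EReal} (h : Sub D u) {z v : E} (hz : DiscIn D z v)
    {c : ℝ} (hc : ∀ w : ℂ, ‖w‖ = 1 → u (z + w • v) ≤ c) : u z ≤ c := by
  have := h z v hz (fun _ => c) continuous_const hc
  rwa [Real.circleAverage_const] at this

namespace IsPsh

variable {D D' : Set E} {u u' : E → EReal}

theorem mono (h : IsPsh D u) (hD : D' ⊆ D) : IsPsh D' u :=
  ⟨h.usc.mono hD, fun x hx => h.lt_top x (hD hx), h.sub.mono hD⟩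

theorem congr (h : IsPsh D u) (he : EqOn u u' D) : IsPsh D u' := by
  refine ⟨fun x hx y hy => ?_, fun x hx => he hx ▸ h.lt_top x hx, h.sub.congr he⟩
  have hy' : u x < y := he hx ▸ hy
  filter_upwards [h.usc x hx y hy', self_mem_nhdsWithin] with z hz hzD
  exact he hzD ▸ hz

theorem uscAt (h : IsPsh D u) (hD : IsOpen D) {x : E} (hx : x ∈ D) :
    UpperSemicontinuousAt u x := fun y hy => by
  have := h.usc x hx y hy
  rwa [hD.nhdsWithin_eq hx] at this

theorem bdd (h : IsPsh D u) {K : Set E} (hK : IsCompact K) (hKD : K ⊆ D) :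
    ∃ C : ℝ, ∀ x ∈ K, u x ≤ C :=
  exists_bound hK (h.usc.mono hKD) fun x hx => h.lt_top x (hKD hx)

theorem const (D : Set E) {a : EReal} (ha : a < ⊤) : IsPsh D fun _ => a := by
  refine ⟨upperSemicontinuousOn_const, fun _ _ => ha, fun z v _ g hg hle => ?_⟩
  induction a with
  | bot => exact bot_le
  | top => exact absurd ha (lt_irrefl _)
  | coe a =>
    have := avg_mono continuous_const hg fun w hw => EReal.coe_le_coe_iff.1 (hle w hw)
    rw [Real.circleAverage_const] at this
    exact EReal.coe_le_coe_iff.2 this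

theorem sup (h : IsPsh D u) (h' : IsPsh D u') : IsPsh D fun x => max (u x) (u' x) :=
  ⟨h.usc.sup h'.usc, fun x hx => max_lt (h.lt_top x hx) (h'.lt_top x hx),
    fun z v hz g hg hle => max_le
      (h.sub z v hz g hg fun w hw => (le_max_left _ _).trans (hle w hw))
      (h'.sub z v hz g hg fun w hw => (le_max_right _ _).trans (hle w hw))⟩

theorem trunc (h : IsPsh D u) (c : ℝ) : IsPsh D fun x => (tr c (u x) : EReal) :=
  (h.sup (const D (EReal.coe_lt_top c))).congr fun x hx => (coe_tr (h.lt_top x hx)).symm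

theorem add (h : IsPsh D u) (h' : IsPsh D u') : IsPsh D fun x => u x + u' x := by
  refine ⟨usc_add h.usc h'.usc h.lt_top h'.lt_top,
    fun x hx => add_lt_top' (h.lt_top x hx) (h'.lt_top x hx), Sub.of_lt fun z v hz g hg hlt => ?_⟩
  have hS : IsCompact (sphere (0 : ℂ) 1) := isCompact_sphere _ _
  obtain ⟨a, ha1, ha2, ha3, ha4⟩ := exists_cont_seq hS (usc_circle h.usc hz)
    fun w hw => h.lt_top _ (mapsTo_sphere hz hw)
  obtain ⟨b, hb1, hb2, hb3, hb4⟩ := exists_cont_seq hS (usc_circle h'.usc hz)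
    fun w hw => h'.lt_top _ (mapsTo_sphere hz hw)
  obtain ⟨k, hk⟩ := dini hS (f := fun k w => ((a k w + b k w : ℝ) : EReal))
    (fun k => usc_coe ((ha1 k).add (hb1 k)).continuousOn)
    (fun i j => ⟨max i j, fun w _ =>
      ⟨EReal.coe_le_coe_iff.2 (add_le_add (ha2 w (le_max_left _ _)) (hb2 w (le_max_left _ _))),
       EReal.coe_le_coe_iff.2
        (add_le_add (ha2 w (le_max_right _ _)) (hb2 w (le_max_right _ _)))⟩⟩)
    hg.continuousOn (fun w hw => by
      have h1 := hlt w (by simpa using hw)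
      obtain ⟨p, q, hp, hq, hpq⟩ : ∃ p q : ℝ, u (z + w • v) < p ∧ u' (z + w • v) < q ∧
          p + q ≤ g w := by
        have t1 := h.lt_top _ (mapsTo_sphere hz hw)
        have t2 := h'.lt_top _ (mapsTo_sphere hz hw)
        simp only at t1 t2
        generalize u (z + w • v) = A at h1 t1
        generalize u' (z + w • v) = B at h1 t2
        induction A with
        | top => exact absurd t1 (lt_irrefl _)
        | bot =>
          obtain ⟨q, hq, -⟩ := EReal.lt_iff_exists_real_btwn.1 t2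
          exact ⟨g w - q, q, EReal.bot_lt_coe _, hq, by linarith⟩
        | coe A =>
          induction B with
          | top => exact absurd t2 (lt_irrefl _)
          | bot => exact ⟨A + 1, g w - (A + 1), EReal.coe_lt_coe_iff.2 (by linarith),
              EReal.bot_lt_coe _, by linarith⟩
          | coe B =>
            rw [← EReal.coe_add, EReal.coe_lt_coe_iff] at h1
            exact ⟨A + (g w - A - B) / 2, B + (g w - A - B) / 2,
              EReal.coe_lt_coe_iff.2 (by linarith), EReal.coe_lt_coe_iff.2 (by linarith),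
              by linarith⟩
      obtain ⟨k, hk1, hk2⟩ := ((ha4 w hw p hp).and (hb4 w hw q hq)).exists
      exact ⟨k, EReal.coe_lt_coe_iff.2 (by linarith)⟩)
  refine (add_le_coe (h.sub z v hz _ (ha1 k) fun w hw => ha3 k w (by simpa using hw))
    (h'.sub z v hz _ (hb1 k) fun w hw => hb3 k w (by simpa using hw))).trans
    (EReal.coe_le_coe_iff.2 ?_)
  rw [← Real.circleAverage_fun_add (cint (ha1 k)) (cint (hb1 k))]
  exact avg_mono ((ha1 k).add (hb1 k)) hg fun w hw =>
    (EReal.coe_lt_coe_iff.1 (hk w (by simpa using hw))).le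

theorem add_const (h : IsPsh D u) (c : ℝ) : IsPsh D fun x => u x + c :=
  h.add (const D (EReal.coe_lt_top c))

theorem smul (h : IsPsh D u) {c : ℝ} (hc : 0 ≤ c) : IsPsh D fun x => (c : EReal) * u x := by
  rcases hc.eq_or_lt with rfl | hc0
  · simpa using const D (a := 0) (by simp)
  refine ⟨usc_smul h.usc hc, fun x hx => ?_, fun z v hz g hg hle => ?_⟩
  · obtain ⟨b, hb⟩ := exists_real_ge (h.lt_top x hx)
    exact (coe_mul_le hc hb).trans_lt (EReal.coe_lt_top _)
  · have h1 := h.sub z v hz (fun w => c⁻¹ * g w) (continuous_const.mul hg) fun w hw => by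
      have := le_of_coe_mul_le hc0 (hle w hw)
      rwa [div_eq_inv_mul] at this
    have h2 := coe_mul_le hc h1
    rwa [avg_const_mul, mul_inv_cancel_left₀ hc0.ne'] at h2

theorem sum {ι : Type*} (s : Finset ι) {f : ι → E → EReal} (h : ∀ i ∈ s, IsPsh D (f i)) :
    IsPsh D fun x => ∑ i ∈ s, f i x := by
  classical
  induction s using Finset.induction_on with
  | empty => simpa using const D (a := 0) (by simp)
  | insert a s ha ih =>
    simp only [Finset.sum_insert ha]
    exact (h a (Finset.mem_insert_self _ _)).add (ih fun i hi => h i (Finset.mem_insert_of_mem hi))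

theorem finset_sup {ι : Type*} (s : Finset ι) {f : ι → E → EReal} (h : ∀ i ∈ s, IsPsh D (f i)) :
    IsPsh D fun x => s.sup fun i => f i x := by
  classical
  induction s using Finset.induction_on with
  | empty => simpa using const D (a := ⊥) (by simp)
  | insert a s ha ih =>
    simp only [Finset.sup_insert]
    exact (h a (Finset.mem_insert_self _ _)).sup (ih fun i hi => h i (Finset.mem_insert_of_mem hi))

/-- infimum of a downward directed family -/
theorem iInf_directed {ι : Type*} [Nonempty ι] {f : ι → E → EReal} (h : ∀ i, IsPsh D (f i))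
    (hd : ∀ i j, ∃ k, ∀ x ∈ D, f k x ≤ f i x ∧ f k x ≤ f j x) :
    IsPsh D fun x => ⨅ i, f i x := by
  refine ⟨upperSemicontinuousOn_iInf fun i => (h i).usc, fun x hx =>
    (iInf_le _ (Classical.arbitrary ι)).trans_lt ((h _).lt_top x hx),
    Sub.of_lt fun z v hz g hg hlt => ?_⟩
  obtain ⟨k, hk⟩ := dini (isCompact_sphere (0 : ℂ) 1) (f := fun i w => f i (z + w • v))
    (fun i => usc_circle (h i).usc hz)
    (fun i j => (hd i j).imp fun k hk w hw => hk _ (mapsTo_sphere hz hw))
    hg.continuousOn fun w hw => iInf_lt_iff.1 (hlt w (by simpa using hw))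
  exact (iInf_le _ k).trans
    ((h k).sub z v hz g hg fun w hw => (hk w (by simpa using hw)).le)

theorem iInf_antitone {ι : Type*} [SemilatticeSup ι] [Nonempty ι] {f : ι → E → EReal}
    (h : ∀ i, IsPsh D (f i)) (hd : ∀ x ∈ D, Antitone fun i => f i x) :
    IsPsh D fun x => ⨅ i, f i x :=
  iInf_directed h fun i j => ⟨i ⊔ j, fun x hx => ⟨hd x hx le_sup_left, hd x hx le_sup_right⟩⟩


/-- pull-back by a continuous complex affine map -/
theorem comp_affine {F : Type*} [NormedAddCommGroup F] [NormedSpace ℂ F] (h : IsPsh D u)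
    (L : F →L[ℂ] E) (b : E) : IsPsh ((fun y => b + L y) ⁻¹' D) fun y => u (b + L y) := by
  have hc : Continuous fun y => b + L y := by fun_prop
  refine ⟨h.usc.comp hc.continuousOn fun y hy => hy, fun y hy => h.lt_top _ hy,
    fun z v hz g hg hle => ?_⟩
  have e : ∀ w : ℂ, b + L (z + w • v) = b + L z + w • L v := fun w => by
    rw [map_add, map_smul, add_assoc]
  exact h.sub (b + L z) (L v) (fun w hw => e w ▸ hz w hw) g hg fun w hw => e w ▸ hle w hw

theorem comp_clm {F : Type*} [NormedAddCommGroup F] [NormedSpace ℂ F] (h : IsPsh D u)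
    (L : F →L[ℂ] E) : IsPsh (L ⁻¹' D) fun y => u (L y) := by
  simpa using h.comp_affine L 0

theorem comp_fst {F : Type*} [NormedAddCommGroup F] [NormedSpace ℂ F] (h : IsPsh D u)
    (S : Set F) : IsPsh (D ×ˢ S) fun p : E × F => u p.1 :=
  (h.comp_clm (ContinuousLinearMap.fst ℂ E F)).mono fun _ hp => hp.1

theorem comp_snd {F : Type*} [NormedAddCommGroup F] [NormedSpace ℂ F] (h : IsPsh D u)
    (S : Set F) : IsPsh (S ×ˢ D) fun p : F × E => u p.2 :=
  (h.comp_clm (ContinuousLinearMap.snd ℂ F E)).mono fun _ hp => hp.2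

theorem slice_left {F : Type*} [NormedAddCommGroup F] [NormedSpace ℂ F] {W : Set (E × F)}
    {U : E × F → EReal} (h : IsPsh W U) (y : F) :
    IsPsh {x | (x, y) ∈ W} fun x => U (x, y) := by
  simpa [preimage] using h.comp_affine (ContinuousLinearMap.inl ℂ E F) (0, y)

theorem slice_right {F : Type*} [NormedAddCommGroup F] [NormedSpace ℂ F] {W : Set (E × F)}
    {U : E × F → EReal} (h : IsPsh W U) (x : E) :
    IsPsh {y | (x, y) ∈ W} fun y => U (x, y) := by
  simpa [preimage] using h.comp_affine (ContinuousLinearMap.inr ℂ E F) (x, 0)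

/-- restriction to a complex line -/
theorem line (h : IsPsh D u) (z v : E) :
    IsPsh {w : ℂ | z + w • v ∈ D} fun w => u (z + w • v) := by
  simpa [preimage] using h.comp_affine ((ContinuousLinearMap.id ℂ ℂ).smulRight v) z

end IsPsh

/-! ### relaxed upper limits -/

section rlim

variable {ι X : Type*} [TopologicalSpace X] {l : Filter ι} {u : ι → X → EReal}

theorem ev_lt_of_rlim_lt {x : X} {a : EReal} (h : rlim l u x < a) :
    ∀ᶠ p in l ×ˢ 𝓝 x, u p.1 p.2 < a := eventually_lt_of_limsup_lt h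

theorem rlim_le {x : X} {a : EReal} (h : ∀ᶠ p in l ×ˢ 𝓝 x, u p.1 p.2 ≤ a) : rlim l u x ≤ a :=
  limsup_le_of_le (by isBoundedDefault) h

theorem rlim_le_of {x : X} {a : EReal} {V : Set X} (hV : V ∈ 𝓝 x)
    (h : ∀ᶠ i in l, ∀ y ∈ V, u i y ≤ a) : rlim l u x ≤ a := by
  refine rlim_le ?_
  filter_upwards [prod_mem_prod h hV] with p hp
  exact hp.1 _ hp.2

theorem usc_rlim : UpperSemicontinuous (rlim l u) := by
  intro x a ha
  obtain ⟨b, h1, h2⟩ := exists_between ha
  obtain ⟨S, hS, V, hV, h⟩ := eventually_prod_iff.1 (ev_lt_of_rlim_lt h1)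
  filter_upwards [eventually_eventually_nhds.2 hV] with y hy
  refine lt_of_le_of_lt (rlim_le ?_) h2
  filter_upwards [prod_mem_prod hS hy] with p hp
  exact (h hp.1 hp.2).le

/-- along any net `(i, y i) → (l, x)` the upper limit is at most `rlim` -/
theorem limsup_le_rlim {κ : Type*} {l' : Filter κ} {i : κ → ι} {y : κ → X} {x : X}
    (hi : Tendsto i l' l) (hy : Tendsto y l' (𝓝 x)) :
    limsup (fun k => u (i k) (y k)) l' ≤ rlim l u x := by
  refine le_of_forall_gt_imp_ge_of_dense fun a ha => limsup_le_of_le (by isBoundedDefault) ?_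
  exact ((hi.prodMk hy).eventually (ev_lt_of_rlim_lt ha)).mono fun k hk => hk.le

theorem limsup_le_rlim' (x : X) : limsup (fun i => u i x) l ≤ rlim l u x :=
  limsup_le_rlim (i := id) (y := fun _ => x) tendsto_id tendsto_const_nhds

theorem le_rlim_top (i : ι) (x : X) : u i x ≤ rlim ⊤ u x :=
  le_trans (le_limsup_of_frequently_le (frequently_top.2 ⟨i, le_rfl⟩)) (limsup_le_rlim' x)

/-- a usc majorant of the family majorises `rlim` -/
theorem rlim_le_of_usc {x : X} {g : X → EReal} (hg : UpperSemicontinuousAt g x) {V : Set X}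
    (hV : V ∈ 𝓝 x) (h : ∀ᶠ i in l, ∀ y ∈ V, u i y ≤ g y) : rlim l u x ≤ g x := by
  refine le_of_forall_gt_imp_ge_of_dense fun a ha => ?_
  refine rlim_le_of (inter_mem hV (hg a ha)) (h.mono fun i hi y hy => ?_)
  exact (hi y hy.1).trans (le_of_lt hy.2)

theorem rlim_mono {u' : ι → X → EReal} {x : X} (h : ∀ᶠ p in l ×ˢ 𝓝 x, u p.1 p.2 ≤ u' p.1 p.2) :
    rlim l u x ≤ rlim l u' x := limsup_le_limsup h

theorem rlim_mono_filter {l' : Filter ι} (h : l' ≤ l) (x : X) : rlim l' u x ≤ rlim l u x :=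
  le_of_forall_gt_imp_ge_of_dense fun _ ha => rlim_le
    (((ev_lt_of_rlim_lt ha).filter_mono (Filter.prod_mono h le_rfl)).mono fun _ hp => hp.le)

/-- **Hartogs' lemma** -/
theorem hartogs {K : Set X} (hK : IsCompact K) {g : X → ℝ} (hg : ∀ x ∈ K, ContinuousAt g x)
    (h : ∀ x ∈ K, rlim l u x < g x) : ∀ᶠ p in l ×ˢ 𝓝ˢ K, u p.1 p.2 < g p.2 := by
  refine hK.mem_prod_nhdsSet_of_forall fun x hx => ?_
  obtain ⟨b, h1, h2⟩ := EReal.lt_iff_exists_real_btwn.1 (h x hx)
  have h3 : ∀ᶠ y in 𝓝 x, b < g y := (hg x hx).eventually (lt_mem_nhds (EReal.coe_lt_coe_iff.1 h2))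
  filter_upwards [ev_lt_of_rlim_lt h1, tendsto_snd.eventually h3] with p hp1 hp2
  exact hp1.trans (EReal.coe_lt_coe_iff.2 hp2)

theorem hartogs' {K : Set X} (hK : IsCompact K) {g : X → ℝ} (hg : ∀ x ∈ K, ContinuousAt g x)
    (h : ∀ x ∈ K, rlim l u x < g x) : ∀ᶠ i in l, ∀ x ∈ K, u i x < g x := by
  obtain ⟨S, hS, V, hV, h'⟩ := eventually_prod_iff.1 (hartogs hK hg h)
  filter_upwards [hS] with i hi x hx
  exact h' hi (subset_of_mem_nhdsSet hV hx)

end rlim

/-- **relaxed upper limits of psh functions are psh** -/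
theorem isPsh_rlim {ι : Type*} {l : Filter ι} {D : Set E} (hD : IsOpen D) {u : ι → E → EReal}
    (h : ∀ᶠ i in l, Sub D (u i)) (hb : ∀ x ∈ D, rlim l u x < ⊤) : IsPsh D (rlim l u) := by
  refine ⟨usc_rlim.upperSemicontinuousOn _, hb, Sub.of_lt fun z v hz g hg hlt => ?_⟩
  have h1 : ∀ᶠ q in (l ×ˢ 𝓝 z) ×ˢ 𝓝ˢ (sphere (0 : ℂ) 1), u q.1.1 (q.1.2 + q.2 • v) < g q.2 := by
    refine (isCompact_sphere (0 : ℂ) 1).mem_prod_nhdsSet_of_forall fun w hw => ?_
    obtain ⟨b, h1, h2⟩ := EReal.lt_iff_exists_real_btwn.1 (hlt w (by simpa using hw))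
    have h3 : ∀ᶠ y in 𝓝 w, b < g y :=
      hg.continuousAt.eventually (lt_mem_nhds (EReal.coe_lt_coe_iff.1 h2))
    have t : Tendsto (fun q : (ι × E) × ℂ => (q.1.1, q.1.2 + q.2 • v)) ((l ×ˢ 𝓝 z) ×ˢ 𝓝 w)
        (l ×ˢ 𝓝 (z + w • v)) :=
      (tendsto_fst.comp tendsto_fst).prodMk
        ((tendsto_snd.comp tendsto_fst).add (tendsto_snd.smul_const v))
    filter_upwards [t.eventually (ev_lt_of_rlim_lt h1), tendsto_snd.eventually h3] with q hq1 hq2
    exact hq1.trans (EReal.coe_lt_coe_iff.2 hq2)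
  have h2 : ∀ᶠ y in 𝓝 z, DiscIn D y v := by
    have : ∀ᶠ q in 𝓝 z ×ˢ 𝓝ˢ (closedBall (0 : ℂ) 1), q.1 + q.2 • v ∈ D := by
      refine (isCompact_closedBall (0 : ℂ) 1).mem_prod_nhdsSet_of_forall fun w hw => ?_
      have t : Tendsto (fun q : E × ℂ => q.1 + q.2 • v) (𝓝 z ×ˢ 𝓝 w) (𝓝 (z + w • v)) :=
        tendsto_fst.add (tendsto_snd.smul_const v)
      exact t.eventually (hD.mem_nhds (hz w (by simpa using hw)))
    obtain ⟨S, hS, V, hV, h'⟩ := eventually_prod_iff.1 this
    filter_upwards [hS] with y hy w hw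
    exact h' hy (subset_of_mem_nhdsSet hV (by simpa using hw))
  obtain ⟨S, hS, V, hV, h'⟩ := eventually_prod_iff.1 h1
  refine rlim_le ?_
  filter_upwards [hS, tendsto_fst.eventually h, tendsto_snd.eventually h2] with p hp1 hp2 hp3
  exact hp2 _ v hp3 g hg fun w hw =>
    (h' hp1 (subset_of_mem_nhdsSet hV (by simpa using hw))).le

/-- locally uniformly bounded above families have `rlim < ⊤` -/
theorem rlim_lt_top {ι X : Type*} [TopologicalSpace X] {l : Filter ι} {u : ι → X → EReal} {x : X}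
    {V : Set X} (hV : V ∈ 𝓝 x) {C : ℝ} (h : ∀ᶠ i in l, ∀ y ∈ V, u i y ≤ C) : rlim l u x < ⊤ :=
  (rlim_le_of hV h).trans_lt (EReal.coe_lt_top C)

end Crest.Agent.X261.Psh
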