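import Crest.Agent.X261.Psh.Defs

-- ▼ part X261/Psh/Mean
section

/-!
# Row 261, package PSH (helper78), file `Mean`

Integral forms of the sub-mean value inequality (circles, rotation invariant measures, balls),
local integrability, the identity theorem for `-∞`, and `a.e. ≤ ⟹ ≤`.
-/

set_option autoImplicit false
set_option linter.dupNamespace false
set_option linter.unusedSectionVars false

open Set Filter Topology Metric MeasureTheory
open scoped ENNReal

noncomputable section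

namespace Crest.Agent.X261.Psh

open Crest.Agent.R275.FL884 (DiscIn cir norm_cir continuous_cir discIn_of_closedBall
  measurePreserving_rot)

/-! ### `cst` -/

@[simp] theorem cst_coe (C x : ℝ) : cst C (x : EReal) = ENNReal.ofReal (C - x) := by
  rw [cst, ← EReal.coe_sub, EReal.real_coe_toENNReal]

@[simp] theorem cst_bot (C : ℝ) : cst C ⊥ = ⊤ := by simp [cst]

@[simp] theorem cst_top (C : ℝ) : cst C ⊤ = 0 := by simp [cst]

theorem cst_anti (C : ℝ) {a b : EReal} (h : a ≤ b) : cst C b ≤ cst C a :=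
  EReal.toENNReal_le_toENNReal (EReal.sub_le_sub le_rfl h)


theorem cst_eq_top {C : ℝ} {a : EReal} : cst C a = ⊤ ↔ a = ⊥ := by
  induction a <;> simp

theorem cst_lt_top {C : ℝ} {a : EReal} : cst C a < ⊤ ↔ a ≠ ⊥ := by
  rw [lt_top_iff_ne_top, Ne, cst_eq_top]

theorem ofReal_le_cst {C x : ℝ} {a : EReal} (h : a ≤ x) : ENNReal.ofReal (C - x) ≤ cst C a := by
  rw [← cst_coe]; exact cst_anti C h

theorem cst_le_ofReal {C x : ℝ} {a : EReal} (h : (x : EReal) ≤ a) :
    cst C a ≤ ENNReal.ofReal (C - x) := by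
  rw [← cst_coe]; exact cst_anti C h

theorem le_of_ofReal_le_cst {C t : ℝ} {a : EReal} (ha : a ≤ C) (h : ENNReal.ofReal t ≤ cst C a) :
    a ≤ ((C - t : ℝ) : EReal) := by
  induction a with
  | bot => exact bot_le
  | top => exact absurd ha (EReal.coe_lt_top _).not_ge
  | coe a =>
    have ha' := EReal.coe_le_coe_iff.1 ha
    rw [cst_coe, ENNReal.ofReal_le_ofReal_iff (by linarith)] at h
    exact EReal.coe_le_coe_iff.2 (by linarith)

theorem le_of_cst_le {C t : ℝ} {a : EReal} (ht : 0 ≤ t) (h : cst C a ≤ ENNReal.ofReal t) :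
    ((C - t : ℝ) : EReal) ≤ a := by
  induction a with
  | bot => simp at h
  | top => exact le_top
  | coe a =>
    rw [cst_coe, ENNReal.ofReal_le_ofReal_iff ht] at h
    exact EReal.coe_le_coe_iff.2 (by linarith)


theorem cst_le_add (C C' : ℝ) (a : EReal) : cst C a ≤ cst C' a + ENNReal.ofReal (C - C') := by
  induction a with
  | bot => simp
  | top => simp
  | coe a =>
    rw [cst_coe, cst_coe]
    refine le_trans (le_of_eq ?_) ENNReal.ofReal_add_le
    congr 1; ring

theorem cst_add {C C' : ℝ} (h : C' ≤ C) {a : EReal} (ha : a ≤ C') :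
    cst C a = cst C' a + ENNReal.ofReal (C - C') := by
  induction a with
  | bot => simp
  | top => exact absurd ha (EReal.coe_lt_top _).not_ge
  | coe a =>
    have ha' := EReal.coe_le_coe_iff.1 ha
    rw [cst_coe, cst_coe, ← ENNReal.ofReal_add (by linarith) (by linarith)]
    congr 1; ring

theorem continuous_cst (C : ℝ) : Continuous (cst C) := by
  refine EReal.continuous_toENNReal.comp (continuous_iff_continuousAt.2 fun a => ?_)
  have h1 : ContinuousAt (fun p : EReal × EReal => p.1 + p.2) ((C : EReal), -a) :=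
    EReal.continuousAt_add (Or.inl (EReal.coe_ne_top C)) (Or.inl (EReal.coe_ne_bot C))
  exact h1.comp (f := fun a : EReal => ((C : EReal), -a))
    (continuousAt_const.prodMk continuous_neg.continuousAt)

theorem measurable_cst (C : ℝ) : Measurable (cst C) := (continuous_cst C).measurable

theorem cst_eq_ofReal {C : ℝ} {a : EReal} (h1 : a ≠ ⊥) (h2 : a ≠ ⊤) :
    cst C a = ENNReal.ofReal (C - a.toReal) := by
  rw [← cst_coe, EReal.coe_toReal h2 h1]

/-- from the `lintegral` form to the Bochner form -/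
theorem mul_le_integral {α : Type*} [MeasurableSpace α] {ν : Measure α} [IsFiniteMeasure ν]
    {F : α → EReal} {f : α → ℝ} (hf : Integrable f ν) (hle : ∀ᵐ x ∂ν, F x ≤ f x) {C : ℝ}
    (hC : ∀ᵐ x ∂ν, F x ≤ C) {a : ℝ} (ha : a ≤ C)
    (h : ∫⁻ x, cst C (F x) ∂ν ≤ ν univ * cst C a) : ν.real univ * a ≤ ∫ x, f x ∂ν := by
  have hi : Integrable (fun x => min (f x) C) ν := hf.inf (integrable_const C)
  have h1 : ENNReal.ofReal (∫ x, (C - min (f x) C) ∂ν) ≤ ∫⁻ x, cst C (F x) ∂ν := by
    rw [ofReal_integral_eq_lintegral_ofReal (f := fun x => C - min (f x) C)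
      ((integrable_const C).sub hi)
      (Eventually.of_forall fun x => sub_nonneg.2 (min_le_right _ _))]
    refine lintegral_mono_ae ?_
    filter_upwards [hle, hC] with x h1 h2
    refine ofReal_le_cst ?_
    rw [EReal.coe_strictMono.monotone.map_min]
    exact le_min h1 h2
  have h2 := h1.trans h
  rw [cst_coe, ← ENNReal.ofReal_toReal (measure_ne_top ν univ),
    ← ENNReal.ofReal_mul ENNReal.toReal_nonneg,
    ENNReal.ofReal_le_ofReal_iff (mul_nonneg ENNReal.toReal_nonneg (by linarith)),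
    integral_sub (integrable_const C) hi, integral_const, smul_eq_mul] at h2
  have h3 : ∫ x, min (f x) C ∂ν ≤ ∫ x, f x ∂ν := integral_mono hi hf fun x => min_le_left _ _
  simp only [Measure.real] at h2 ⊢
  nlinarith

/-! ### circles -/

theorem cir_eq (t : ℝ) : cir t = circleMap 0 1 (2 * Real.pi * t) := by
  simp [cir, circleMap]

theorem avg_eq (g : ℂ → ℝ) : Real.circleAverage g 0 1 = ∫ t in Ioo (0 : ℝ) 1, g (cir t) := by
  have hpi : (2 * Real.pi) ≠ 0 := by positivity
  have h := intervalIntegral.integral_comp_mul_left (a := 0) (b := 1)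
    (fun θ => g (circleMap 0 1 θ)) hpi
  simp only [mul_zero, mul_one] at h
  rw [Real.circleAverage_def, ← h, intervalIntegral.integral_of_le zero_le_one,
    integral_Ioc_eq_integral_Ioo]
  simp only [cir_eq]

theorem integrableOn_cir {g : ℂ → ℝ} (hg : CircleIntegrable g 0 1) :
    IntegrableOn (fun t => g (cir t)) (Ioo (0 : ℝ) 1) := by
  have hpi : (2 * Real.pi) ≠ 0 := by positivity
  have h := IntervalIntegrable.comp_mul_left (c := 2 * Real.pi) hg
  rw [zero_div, div_self hpi, intervalIntegrable_iff_integrableOn_Ioo_of_le zero_le_one] at h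
  simpa only [cir_eq] using h

instance : IsProbabilityMeasure (volume.restrict (Ioo (0 : ℝ) 1)) := ⟨by simp⟩

variable {E : Type*} [NormedAddCommGroup E] [NormedSpace ℂ E] {D : Set E} {u : E → EReal}

theorem IsPsh.lint_circle (h : IsPsh D u) {z v : E} (hz : DiscIn D z v) {C : ℝ}
    (hC : ∀ w : ℂ, ‖w‖ = 1 → u (z + w • v) ≤ C) :
    ∫⁻ t in Ioo (0 : ℝ) 1, cst C (u (z + cir t • v)) ≤ cst C (u z) := by
  obtain ⟨g, g1, g2, g3, g4⟩ := exists_cont_seq (isCompact_sphere (0 : ℂ) 1) (usc_circle h.usc hz)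
    fun w hw => h.lt_top _ (mapsTo_sphere hz hw)
  have hc : ∀ k, Continuous fun w => min (g k w) C := fun k => (g1 k).min continuous_const
  have h1 : ∀ k, ∫⁻ t in Ioo (0 : ℝ) 1, ENNReal.ofReal (C - min (g k (cir t)) C) ≤ cst C (u z) := by
    intro k
    have hi : IntegrableOn (fun t => min (g k (cir t)) C) (Ioo (0 : ℝ) 1) :=
      integrableOn_cir (cint (hc k))
    rw [← ofReal_integral_eq_lintegral_ofReal (f := fun t => C - min (g k (cir t)) C)
      ((integrable_const C).sub hi)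
      (Eventually.of_forall fun x => sub_nonneg.2 (min_le_right _ _)),
      integral_sub (integrable_const C) hi, integral_const, smul_eq_mul, probReal_univ, one_mul,
      ← avg_eq (fun w => min (g k w) C)]
    refine ofReal_le_cst (h.sub z v hz _ (hc k) fun w hw => ?_)
    rw [EReal.coe_strictMono.monotone.map_min]
    exact le_min (g3 k w (by simpa using hw)) (hC w hw)
  have h2 : ∀ t, cst C (u (z + cir t • v)) ≤ ⨆ k, ENNReal.ofReal (C - min (g k (cir t)) C) := by
    intro t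
    have ht : cir t ∈ sphere (0 : ℂ) 1 := by simpa using norm_cir t
    refine le_of_forall_lt_imp_le_of_dense fun b hb => ?_
    have hbt : b ≠ ⊤ := ne_top_of_lt hb
    rw [← ENNReal.ofReal_toReal hbt] at hb ⊢
    have h3 : u (z + cir t • v) < ((C - b.toReal : ℝ) : EReal) := by
      by_contra hcon
      have := cst_le_ofReal (C := C) (not_lt.1 hcon)
      rw [sub_sub_cancel] at this
      exact absurd hb this.not_gt
    obtain ⟨k, hk⟩ := (g4 _ ht _ h3).exists
    refine le_iSup_of_le k (ENNReal.ofReal_le_ofReal ?_)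
    have := min_le_left (g k (cir t)) C
    linarith
  refine (lintegral_mono h2).trans ?_
  rw [lintegral_iSup]
  · exact iSup_le h1
  · exact fun k => (continuous_const.sub ((hc k).comp continuous_cir)).measurable.ennreal_ofReal
  · intro k k' hkk' t
    exact ENNReal.ofReal_le_ofReal (sub_le_sub_left (min_le_min_right _ (g2 _ hkk')) _)

/-- the `lintegral` form implies `Sub` -/
theorem Sub.of_lint (hlt : ∀ x ∈ D, u x < ⊤)
    (h : ∀ z v : E, DiscIn D z v → ∀ C : ℝ, (∀ w : ℂ, ‖w‖ = 1 → u (z + w • v) ≤ C) → u z ≤ C →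
      ∫⁻ t in Ioo (0 : ℝ) 1, cst C (u (z + cir t • v)) ≤ cst C (u z)) : Sub D u := by
  intro z v hz g hg hle
  obtain ⟨c, hc⟩ := exists_real_ge (hlt z hz.center)
  obtain ⟨M, hM⟩ := (isCompact_sphere (0 : ℂ) 1).bddAbove_image hg.continuousOn
  have hM' : ∀ w : ℂ, ‖w‖ = 1 → g w ≤ max M c := fun w hw =>
    (hM (mem_image_of_mem _ (by simpa using hw))).trans (le_max_left _ _)
  have hz' : u z ≤ (max M c : ℝ) := hc.trans (EReal.coe_le_coe_iff.2 (le_max_right _ _))
  have h1 := h z v hz (max M c) (fun w hw => (hle w hw).trans (EReal.coe_le_coe_iff.2 (hM' w hw)))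
    hz'
  have hi := integrableOn_cir (cint hg)
  have h2 : ENNReal.ofReal (max M c - Real.circleAverage g 0 1) ≤ cst (max M c) (u z) := by
    refine le_trans ?_ h1
    have e : max M c - Real.circleAverage g 0 1 = ∫ t in Ioo (0 : ℝ) 1, (max M c - g (cir t)) := by
      rw [integral_sub (integrable_const _) hi, integral_const, smul_eq_mul, probReal_univ,
        one_mul, avg_eq]
    rw [e, ofReal_integral_eq_lintegral_ofReal (f := fun t => max M c - g (cir t))
      ((integrable_const _).sub hi)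
      (Eventually.of_forall fun t => sub_nonneg.2 (hM' _ (norm_cir t)))]
    exact lintegral_mono fun t => ofReal_le_cst (hle _ (norm_cir t))
  simpa using le_of_ofReal_le_cst hz' h2

theorem IsPsh.exists_bound_circle (h : IsPsh D u) {z v : E} (hz : DiscIn D z v) :
    ∃ C : ℝ, ∀ w : ℂ, ‖w‖ = 1 → u (z + w • v) ≤ C := by
  obtain ⟨C, hC⟩ := exists_bound (isCompact_sphere (0 : ℂ) 1) (usc_circle h.usc hz)
    fun w hw => h.lt_top _ (mapsTo_sphere hz hw)
  exact ⟨C, fun w hw => hC w (by simpa using hw)⟩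

/-- sub-mean value inequality against an integrable a.e. majorant -/
theorem IsPsh.le_integral_circle (h : IsPsh D u) {z v : E} (hz : DiscIn D z v) {f : ℝ → ℝ}
    (hf : IntegrableOn f (Ioo (0 : ℝ) 1))
    (hle : ∀ᵐ t ∂volume.restrict (Ioo (0 : ℝ) 1), u (z + cir t • v) ≤ f t) :
    u z ≤ (∫ t in Ioo (0 : ℝ) 1, f t : ℝ) := by
  obtain ⟨C, hC⟩ := h.exists_bound_circle hz
  have hz' := h.sub.le_const hz hC
  have h1 := h.lint_circle hz hC
  induction hu : u z with
  | bot => exact bot_le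
  | top => exact absurd (hu ▸ hz') (EReal.coe_lt_top _).not_ge
  | coe a =>
    rw [hu] at h1 hz'
    have := mul_le_integral hf hle (Eventually.of_forall fun t => hC _ (norm_cir t))
      (EReal.coe_le_coe_iff.1 hz') (by rwa [measure_univ, one_mul])
    rw [probReal_univ, one_mul] at this
    exact EReal.coe_le_coe_iff.2 this

theorem IsPsh.le_avg (h : IsPsh D u) {z v : E} (hz : DiscIn D z v) {g : ℂ → ℝ}
    (hg : CircleIntegrable g 0 1) (hle : ∀ w : ℂ, ‖w‖ = 1 → u (z + w • v) ≤ g w) :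
    u z ≤ (Real.circleAverage g 0 1 : ℝ) := by
  rw [avg_eq]
  exact h.le_integral_circle hz (integrableOn_cir hg)
    (Eventually.of_forall fun t => hle _ (norm_cir t))

/-- real valued functions: the usual definition -/
theorem Sub.of_real {f : E → ℝ}
    (h : ∀ z v : E, DiscIn D z v → CircleIntegrable (fun w : ℂ => f (z + w • v)) 0 1 ∧
      f z ≤ Real.circleAverage (fun w : ℂ => f (z + w • v)) 0 1) :
    Sub D fun x => (f x : EReal) := by
  intro z v hz g hg hle
  obtain ⟨h1, h2⟩ := h z v hz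
  refine EReal.coe_le_coe_iff.2 (h2.trans (Real.circleAverage_mono h1 (cint hg) fun w hw => ?_))
  exact EReal.coe_le_coe_iff.1 (hle w (by simpa using hw))

theorem cint_disc {f : E → ℝ} (hf : ContinuousOn f D) {z v : E} (hz : DiscIn D z v) :
    CircleIntegrable (fun w : ℂ => f (z + w • v)) 0 1 :=
  (hf.comp (continuous_disc z v).continuousOn (mapsTo_sphere hz)).circleIntegrable zero_le_one

/-- continuous real functions -/
theorem isPsh_coe_iff {f : E → ℝ} (hf : ContinuousOn f D) :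
    IsPsh D (fun x => (f x : EReal)) ↔ ∀ z v : E, DiscIn D z v →
      f z ≤ Real.circleAverage (fun w : ℂ => f (z + w • v)) 0 1 :=
  ⟨fun h _ _ hz => EReal.coe_le_coe_iff.1 (h.le_avg hz (cint_disc hf hz) fun _ _ => le_rfl),
    fun h => ⟨usc_coe hf, fun _ _ => EReal.coe_lt_top _,
      Sub.of_real fun z v hz => ⟨cint_disc hf hz, h z v hz⟩⟩⟩

/-! ### measurability -/

theorem usc_ext {X : Type*} [TopologicalSpace X] {D : Set X} (hD : IsOpen D) {u : X → EReal}
    (h : UpperSemicontinuousOn u D) [DecidablePred (· ∈ D)] :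
    UpperSemicontinuous (D.piecewise u fun _ => ⊤) := by
  intro x y hy
  by_cases hx : x ∈ D
  · have hy' : u x < y := by simpa [hx] using hy
    have := h x hx y hy'
    rw [hD.nhdsWithin_eq hx] at this
    filter_upwards [this, hD.mem_nhds hx] with z hz hzD
    simpa [hzD] using hz
  · simp [hx] at hy

theorem exists_meas {X : Type*} [TopologicalSpace X] [MeasurableSpace X] [OpensMeasurableSpace X]
    {D : Set X} (hD : IsOpen D) {u : X → EReal} (h : UpperSemicontinuousOn u D) :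
    ∃ u' : X → EReal, Measurable u' ∧ EqOn u u' D := by
  classical
  exact ⟨_, (usc_ext hD h).measurable, fun x hx => by simp [hx]⟩

variable [MeasurableSpace E] [BorelSpace E]

theorem IsPsh.aemeasurable (h : IsPsh D u) (hD : IsOpen D) (ν : Measure E) {S : Set E}
    (hS : MeasurableSet S) (hSD : S ⊆ D) : AEMeasurable u (ν.restrict S) := by
  obtain ⟨u', h1, h2⟩ := exists_meas hD h.usc
  exact h1.aemeasurable.congr ((ae_restrict_iff' hS).2
    (Eventually.of_forall fun x hx => (h2 (hSD hx)).symm))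

/-! ### rotation invariant measures -/

variable [FiniteDimensional ℂ E]

/-- sub-mean value inequality for a rotation invariant measure -/
theorem IsPsh.lint_rot (h : IsPsh D u) (hD : IsOpen D) {ν : Measure E} [SFinite ν]
    (hν : ∀ c : ℂ, ‖c‖ = 1 → MeasurePreserving (fun v : E => c • v) ν ν) {z : E} {C : ℝ}
    (hz : ∀ᵐ v ∂ν, DiscIn D z v ∧ ∀ w : ℂ, ‖w‖ = 1 → u (z + w • v) ≤ C) :
    ∫⁻ v, cst C (u (z + v)) ∂ν ≤ ν univ * cst C (u z) := by
  obtain ⟨u', hm, he⟩ := exists_meas hD h.usc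
  have hF : Measurable fun v : E => cst C (u' (z + v)) :=
    (measurable_cst C).comp (hm.comp (measurable_const_add z))
  have e1 : ∫⁻ v, cst C (u (z + v)) ∂ν = ∫⁻ v, cst C (u' (z + v)) ∂ν := by
    refine lintegral_congr_ae ?_
    filter_upwards [hz] with v hv
    have := he (hv.1 1 (by simp))
    rw [one_smul] at this
    rw [this]
  have e2 : ∀ t : ℝ, ∫⁻ v, cst C (u' (z + v)) ∂ν = ∫⁻ v, cst C (u' (z + cir t • v)) ∂ν :=
    fun t => ((hν _ (norm_cir t)).lintegral_comp hF).symm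
  have hcont : Continuous (fun p : ℝ × E => z + cir p.1 • p.2) := by
    have := continuous_cir
    fun_prop
  have e3 : ∫⁻ v, cst C (u' (z + v)) ∂ν =
      ∫⁻ v, (∫⁻ t in Ioo (0 : ℝ) 1, cst C (u' (z + cir t • v))) ∂ν := by
    have h1 : ∫⁻ _ in Ioo (0 : ℝ) 1, (∫⁻ v, cst C (u' (z + v)) ∂ν) =
        ∫⁻ v, cst C (u' (z + v)) ∂ν := by
      rw [lintegral_const, measure_univ, mul_one]
    rw [← h1, lintegral_congr e2, lintegral_lintegral_swap]
    exact ((measurable_cst C).comp (hm.comp hcont.measurable)).aemeasurable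
  rw [e1, e3, mul_comm, ← lintegral_const]
  refine lintegral_mono_ae ?_
  filter_upwards [hz] with v hv
  refine le_trans (le_of_eq (lintegral_congr fun t => ?_)) (h.lint_circle hv.1 hv.2)
  rw [he (hv.1.circle t)]

variable (μ : Measure E) [μ.IsAddHaarMeasure]

theorem rot_restrict {S : Set E} (hS : MeasurableSet S)
    (hr : ∀ c : ℂ, ‖c‖ = 1 → (fun v : E => c • v) ⁻¹' S = S) (c : ℂ) (hc : ‖c‖ = 1) :
    MeasurePreserving (fun v : E => c • v) (μ.restrict S) (μ.restrict S) := by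
  have := (measurePreserving_rot μ c hc).restrict_preimage hS
  rwa [hr c hc] at this

theorem lint_shift (F : E → ℝ≥0∞) (z : E) (S : Set E) :
    ∫⁻ x in S, F x ∂μ = ∫⁻ v in (fun v => z + v) ⁻¹' S, F (z + v) ∂μ :=
  ((measurePreserving_add_left μ z).setLIntegral_comp_preimage_emb
    (measurableEmbedding_addLeft z) F S).symm

theorem discIn_of_ball {z v : E} {r : ℝ} (hv : ‖v‖ < r) : DiscIn (ball z r) z v := by
  intro w hw
  rw [mem_ball, dist_eq_norm, add_sub_cancel_left, norm_smul]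
  exact lt_of_le_of_lt (mul_le_of_le_one_left (norm_nonneg _) hw) hv

theorem IsPsh.lint_ball (h : IsPsh D u) (hD : IsOpen D) {z : E} {r : ℝ} (hB : ball z r ⊆ D)
    {C : ℝ} (hC : ∀ x ∈ ball z r, u x ≤ C) :
    ∫⁻ x in ball z r, cst C (u x) ∂μ ≤ μ (ball z r) * cst C (u z) := by
  have e : (fun v => z + v) ⁻¹' ball z r = ball 0 r := by
    ext v; simp [mem_ball, dist_eq_norm]
  rw [lint_shift μ _ z, e, Measure.addHaar_ball_center μ z r, ← Measure.restrict_apply_univ]
  refine h.lint_rot hD (rot_restrict μ measurableSet_ball fun c hc => ?_) ?_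
  · ext v; simp [norm_smul, hc]
  · refine (ae_restrict_iff' measurableSet_ball).2 (Eventually.of_forall fun v hv => ?_)
    have hv' : DiscIn (ball z r) z v := discIn_of_ball (by simpa using hv)
    exact ⟨hv'.mono hB, fun w hw => hC _ (disc_circle hv' hw)⟩

theorem IsPsh.lint_closedBall (h : IsPsh D u) (hD : IsOpen D) {z : E} {r : ℝ}
    (hB : closedBall z r ⊆ D) {C : ℝ} (hC : ∀ x ∈ closedBall z r, u x ≤ C) :
    ∫⁻ x in closedBall z r, cst C (u x) ∂μ ≤ μ (closedBall z r) * cst C (u z) := by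
  have e : (fun v => z + v) ⁻¹' closedBall z r = closedBall 0 r := by
    ext v; simp [mem_closedBall, dist_eq_norm]
  rw [lint_shift μ _ z, e, Measure.addHaar_closedBall_center μ z r, ← Measure.restrict_apply_univ]
  refine h.lint_rot hD (rot_restrict μ measurableSet_closedBall fun c hc => ?_) ?_
  · ext v; simp [norm_smul, hc]
  · refine (ae_restrict_iff' measurableSet_closedBall).2 (Eventually.of_forall fun v hv => ?_)
    have hv' : DiscIn (closedBall z r) z v := discIn_of_closedBall le_rfl (by simpa using hv)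
    exact ⟨hv'.mono hB, fun w hw => hC _ (disc_circle hv' hw)⟩

theorem exists_cball {D : Set E} (hD : IsOpen D) {x : E} (hx : x ∈ D) :
    ∃ r > 0, closedBall x r ⊆ D := nhds_basis_closedBall.mem_iff.1 (hD.mem_nhds hx)

/-- Bochner form on balls: `μ(B) u(z) ≤ ∫_B f` for every integrable a.e. majorant `f` -/
theorem IsPsh.le_integral_ball (h : IsPsh D u) (hD : IsOpen D) {z : E} {r : ℝ} (hr : 0 < r)
    (hB : closedBall z r ⊆ D) {f : E → ℝ} (hf : IntegrableOn f (ball z r) μ)
    (hle : ∀ᵐ x ∂μ.restrict (ball z r), u x ≤ f x) :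
    u z ≤ ((∫ x in ball z r, f x ∂μ) / μ.real (ball z r) : ℝ) := by
  obtain ⟨C, hC⟩ := h.bdd (isCompact_closedBall z r) hB
  have hz' := hC z (mem_closedBall_self hr.le)
  have h1 := h.lint_ball μ hD (ball_subset_closedBall.trans hB)
    fun x hx => hC x (ball_subset_closedBall hx)
  have : IsFiniteMeasure (μ.restrict (ball z r)) :=
    ⟨by rw [Measure.restrict_apply_univ]; exact measure_ball_lt_top⟩
  have hpos : 0 < μ.real (ball z r) :=
    ENNReal.toReal_pos (measure_ball_pos μ z hr).ne' measure_ball_lt_top.ne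
  induction hu : u z with
  | bot => exact bot_le
  | top => exact absurd (hu ▸ hz') (EReal.coe_lt_top _).not_ge
  | coe a =>
    rw [hu] at h1 hz'
    have := mul_le_integral hf hle ((ae_restrict_iff' measurableSet_ball).2
      (Eventually.of_forall fun x hx => hC x (ball_subset_closedBall hx)))
      (EReal.coe_le_coe_iff.1 hz') (by rwa [Measure.restrict_apply_univ])
    rw [Measure.real, Measure.restrict_apply_univ] at this
    refine EReal.coe_le_coe_iff.2 ?_
    rw [le_div_iff₀ hpos, mul_comm]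
    exact this

/-! ### a.e. inequalities -/

/-- `u ≤ g` a.e. near `x`, `g` usc at `x` ⟹ `u x ≤ g x` -/
theorem IsPsh.le_of_ae (h : IsPsh D u) (hD : IsOpen D) {x : E} (hx : x ∈ D) {g : E → EReal}
    (hg : UpperSemicontinuousAt g x) {V : Set E} (hV : V ∈ 𝓝 x)
    (hle : ∀ᵐ y ∂μ, y ∈ V → u y ≤ g y) : u x ≤ g x := by
  refine le_of_forall_gt_imp_ge_of_dense fun b hb => ?_
  obtain ⟨a, h1, h2⟩ := EReal.lt_iff_exists_real_btwn.1 hb
  refine le_trans ?_ h2.le
  obtain ⟨r, hr, hB⟩ := nhds_basis_closedBall.mem_iff.1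
    (inter_mem (hD.mem_nhds hx) (inter_mem hV (hg _ h1)))
  have hpos : 0 < μ.real (ball x r) :=
    ENNReal.toReal_pos (measure_ball_pos μ x hr).ne' measure_ball_lt_top.ne
  have := h.le_integral_ball μ hD hr (fun y hy => (hB hy).1) (f := fun _ => a)
    (integrableOn_const measure_ball_lt_top.ne) ((ae_restrict_iff' measurableSet_ball).2 (by
      filter_upwards [hle] with y hy hyB
      have := hB (ball_subset_closedBall hyB)
      exact (hy this.2.1).trans (le_of_lt this.2.2)))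
  rwa [setIntegral_const, smul_eq_mul, mul_div_cancel_left₀ _ hpos.ne'] at this

theorem IsPsh.le_of_ae_on {u' : E → EReal} (h : IsPsh D u) (hD : IsOpen D)
    (h' : UpperSemicontinuousOn u' D) (hle : ∀ᵐ y ∂μ, y ∈ D → u y ≤ u' y) {x : E} (hx : x ∈ D) :
    u x ≤ u' x :=
  h.le_of_ae μ hD hx (fun y hy => by
    have := h' x hx y hy
    rwa [hD.nhdsWithin_eq hx] at this) (hD.mem_nhds hx) hle


/-! ### local integrability -/

theorem lint_cst_lt_top {F : E → EReal} {S : Set E} (hS : μ S < ⊤) {C : ℝ}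
    (h : ∫⁻ x in S, cst C (F x) ∂μ < ⊤) (C' : ℝ) : ∫⁻ x in S, cst C' (F x) ∂μ < ⊤ := by
  refine lt_of_le_of_lt (lintegral_mono fun x => cst_le_add C' C (F x)) ?_
  rw [lintegral_add_right _ measurable_const, setLIntegral_const]
  exact ENNReal.add_lt_top.2 ⟨h, ENNReal.mul_lt_top ENNReal.ofReal_lt_top hS⟩

theorem IsPsh.lint_closedBall_lt_top (h : IsPsh D u) (hD : IsOpen D) {z : E} {r : ℝ}
    (hB : closedBall z r ⊆ D) (hz : u z ≠ ⊥) (C : ℝ) :
    ∫⁻ x in closedBall z r, cst C (u x) ∂μ < ⊤ := by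
  obtain ⟨C', hC'⟩ := h.bdd (isCompact_closedBall z r) hB
  exact lint_cst_lt_top μ measure_closedBall_lt_top ((h.lint_closedBall μ hD hB hC').trans_lt
    (ENNReal.mul_lt_top measure_closedBall_lt_top (cst_lt_top.2 hz))) C

/-- dichotomy at a point -/
theorem IsPsh.loc_dich (h : IsPsh D u) (hD : IsOpen D) {x : E} (hx : x ∈ D) :
    (∃ V ∈ 𝓝 x, ∫⁻ y in V, cst 0 (u y) ∂μ < ⊤) ∨ ∀ᶠ y in 𝓝 x, u y = ⊥ := by
  obtain ⟨r, hr, hB⟩ := exists_cball hD hx
  by_cases hb : ∀ y ∈ ball x (r / 3), u y = ⊥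
  · exact Or.inr (mem_of_superset (ball_mem_nhds x (by positivity)) hb)
  · push Not at hb
    obtain ⟨y, hy, hyb⟩ := hb
    rw [mem_ball] at hy
    refine Or.inl ⟨closedBall y (2 * r / 3), closedBall_mem_nhds_of_mem ?_,
      h.lint_closedBall_lt_top μ hD (Subset.trans ?_ hB) hyb 0⟩
    · rw [mem_ball, dist_comm]; linarith
    · exact closedBall_subset_closedBall' (by linarith)

theorem not_both {u : E → EReal} {x : E} {V : Set E} (hV : V ∈ 𝓝 x) {C : ℝ}
    (h1 : ∫⁻ y in V, cst C (u y) ∂μ < ⊤) (h2 : ∀ᶠ y in 𝓝 x, u y = ⊥) : False := by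
  obtain ⟨r, hr, hB⟩ := Metric.mem_nhds_iff.1 (inter_mem hV h2)
  have h3 : ∫⁻ y in ball x r, cst C (u y) ∂μ = ⊤ := by
    rw [setLIntegral_congr_fun measurableSet_ball (g := fun _ => ⊤)
      (fun y hy => cst_eq_top.2 (hB hy).2), setLIntegral_const,
      ENNReal.top_mul (measure_ball_pos μ x hr).ne']
  exact absurd h1 (not_lt.2 (h3 ▸ lintegral_mono_set fun y hy => (hB hy).1))

theorem IsPsh.loc_int (h : IsPsh D u) (hD : IsOpen D) (hc : IsPreconnected D)
    (h0 : ∃ x ∈ D, u x ≠ ⊥) {x : E} (hx : x ∈ D) :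
    ∃ V ∈ 𝓝 x, ∫⁻ y in V, cst 0 (u y) ∂μ < ⊤ := by
  have hA : IsOpen {x | ∃ V ∈ 𝓝 x, ∫⁻ y in V, cst 0 (u y) ∂μ < ⊤} :=
    isOpen_iff_mem_nhds.2 fun x ⟨V, hV, hi⟩ =>
      mem_of_superset (eventually_mem_nhds_iff.2 hV) fun y hy => ⟨V, hy, hi⟩
  have hB : IsOpen {x | ∀ᶠ y in 𝓝 x, u y = ⊥} := isOpen_setOfPred_eventually_nhds
  rcases hc.subset_or_subset hA hB
    (disjoint_left.2 fun x ⟨V, hV, hi⟩ h2 => not_both μ hV hi h2)
    (fun x hx => h.loc_dich μ hD hx) with h1 | h1
  · exact h1 hx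
  · obtain ⟨y, hy, hyb⟩ := h0
    exact absurd (h1 hy).self_of_nhds hyb

theorem lint_compact_lt_top {F : E → ℝ≥0∞} {K : Set E} (hK : IsCompact K)
    (h : ∀ x ∈ K, ∃ V ∈ 𝓝 x, ∫⁻ y in V, F y ∂μ < ⊤) : ∫⁻ y in K, F y ∂μ < ⊤ :=
  hK.induction_on (p := fun s => ∫⁻ y in s, F y ∂μ < ⊤) (by simp)
    (fun _ _ hst ht => (lintegral_mono_set hst).trans_lt ht)
    (fun _ _ hs ht => (lintegral_union_le _ _ _).trans_lt (ENNReal.add_lt_top.2 ⟨hs, ht⟩))
    fun x hx => by
      obtain ⟨V, hV, hi⟩ := h x hx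
      exact ⟨V, mem_nhdsWithin_of_mem_nhds hV, hi⟩

/-- **local integrability** -/
theorem IsPsh.lint_lt_top (h : IsPsh D u) (hD : IsOpen D) (hc : IsPreconnected D)
    (h0 : ∃ x ∈ D, u x ≠ ⊥) {K : Set E} (hK : IsCompact K) (hKD : K ⊆ D) (C : ℝ) :
    ∫⁻ x in K, cst C (u x) ∂μ < ⊤ :=
  lint_cst_lt_top μ hK.measure_lt_top
    (lint_compact_lt_top μ hK fun _ hx => h.loc_int μ hD hc h0 (hKD hx)) C

theorem ae_ne_bot_of_lint {F : E → EReal} {S : Set E} (hF : AEMeasurable F (μ.restrict S)) {C : ℝ}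
    (h : ∫⁻ x in S, cst C (F x) ∂μ < ⊤) : ∀ᵐ x ∂μ.restrict S, F x ≠ ⊥ :=
  (ae_lt_top' ((measurable_cst C).comp_aemeasurable hF) h.ne).mono fun _ hx => cst_lt_top.1 hx

theorem IsPsh.ae_ne_bot (h : IsPsh D u) (hD : IsOpen D) (hc : IsPreconnected D)
    (h0 : ∃ x ∈ D, u x ≠ ⊥) : ∀ᵐ x ∂μ, x ∈ D → u x ≠ ⊥ := by
  have key : μ {x | x ∈ D ∧ u x = ⊥} = 0 := by
    refine measure_null_of_locally_null _ fun x hx => ?_
    obtain ⟨r, hr, hB⟩ := exists_cball hD hx.1
    have h1 := ae_ne_bot_of_lint μ (h.aemeasurable hD μ measurableSet_closedBall hB)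
      (h.lint_lt_top μ hD hc h0 (isCompact_closedBall x r) hB 0)
    rw [ae_restrict_iff' measurableSet_closedBall] at h1
    refine ⟨closedBall x r ∩ {x | x ∈ D ∧ u x = ⊥},
      inter_mem (mem_nhdsWithin_of_mem_nhds (closedBall_mem_nhds x hr)) self_mem_nhdsWithin,
      measure_mono_null (fun y hy => ?_) h1⟩
    exact fun h2 => h2 hy.1 hy.2.2
  refine measure_mono_null (fun x hx => ?_) key
  simpa using hx


theorem integrableOn_toReal {F : E → EReal} {S : Set E} (hS : μ S < ⊤)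
    (hF : AEMeasurable F (μ.restrict S)) {C : ℝ} (hC : ∀ᵐ x ∂μ.restrict S, F x ≤ C)
    (h : ∫⁻ x in S, cst C (F x) ∂μ < ⊤) : IntegrableOn (fun x => (F x).toReal) S μ := by
  have : IsFiniteMeasure (μ.restrict S) := ⟨by rwa [Measure.restrict_apply_univ]⟩
  have h1 : Integrable (fun x => (cst C (F x)).toReal) (μ.restrict S) :=
    integrable_toReal_of_lintegral_ne_top ((measurable_cst C).comp_aemeasurable hF) h.ne
  refine ((integrable_const C).sub h1).congr ?_
  filter_upwards [hC, ae_ne_bot_of_lint μ hF h] with x h1 h2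
  have h3 : F x ≠ ⊤ := (h1.trans_lt (EReal.coe_lt_top C)).ne
  have h4 : (F x).toReal ≤ C := by
    rw [← EReal.coe_le_coe_iff, EReal.coe_toReal h3 h2]; exact h1
  simp only [Pi.sub_apply]
  rw [cst_eq_ofReal h2 h3, ENNReal.toReal_ofReal (by linarith)]
  ring

theorem IsPsh.integrableOn (h : IsPsh D u) (hD : IsOpen D) (hc : IsPreconnected D)
    (h0 : ∃ x ∈ D, u x ≠ ⊥) {K : Set E} (hK : IsCompact K) (hKD : K ⊆ D) :
    IntegrableOn (fun x => (u x).toReal) K μ := by
  obtain ⟨C, hC⟩ := h.bdd hK hKD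
  exact integrableOn_toReal μ hK.measure_lt_top (h.aemeasurable hD μ hK.measurableSet hKD)
    ((ae_restrict_iff' hK.measurableSet).2 (Eventually.of_forall hC))
    (h.lint_lt_top μ hD hc h0 hK hKD C)

end Crest.Agent.X261.Psh
end
end

-- ▼ part X261/Psh/Loc

/-!
# Row 261, package PSH (helper78), file `Loc`

Harmonic majorants, maximum principle, locality and gluing, `Re F`, `log ‖f‖`,
Poisson–Harnack inequality, three circles and Schwarz lemma.
-/

set_option autoImplicit false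
set_option linter.dupNamespace false

open Set Filter Topology Metric MeasureTheory
open scoped ENNReal ComplexConjugate

noncomputable section

namespace Crest.Agent.X261.Psh

open Crest.Agent.R275.FL884 (DiscIn discIn_of_closedBall)

/-! ### one variable -/

/-- real parts of entire functions are dense on the circle -/
theorem exists_entire_approx {g : ℂ → ℝ} (hg : Continuous g) {ε : ℝ} (hε : 0 < ε) :
    ∃ F : ℂ → ℂ, Differentiable ℂ F ∧ ∀ w : ℂ, ‖w‖ = 1 → |(F w).re - g w| < ε := by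
  have : Fact ((0 : ℝ) < 1) := ⟨one_pos⟩
  let f : C(AddCircle (1 : ℝ), ℂ) := ⟨fun x => (g (AddCircle.toCircle x : Circle) : ℂ),
    Complex.continuous_ofReal.comp (hg.comp (continuous_subtype_val.comp
      AddCircle.continuous_toCircle))⟩
  have hf : f ∈ (Submodule.span ℂ (range (@fourier 1))).topologicalClosure := by
    rw [span_fourier_closure_eq_top]; trivial
  obtain ⟨p, hp, hd⟩ := Metric.mem_closure_iff.1 hf ε hε
  have key : ∀ c : ℂ, ∃ F : ℂ → ℂ, Differentiable ℂ F ∧
      ∀ x, (c * p x).re = (F (AddCircle.toCircle x : Circle)).re := by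
    clear hd
    induction hp using Submodule.span_induction with
    | mem q hq =>
      obtain ⟨k, rfl⟩ := hq
      intro c
      have hn : ∀ (m : ℕ) (x : AddCircle (1 : ℝ)),
          fourier m x = ((AddCircle.toCircle x : Circle) : ℂ) ^ m := by
        intro m x
        rw [fourier_apply, natCast_zsmul, AddCircle.toCircle_nsmul]
        simp
      rcases Int.eq_nat_or_neg k with ⟨m, rfl | rfl⟩
      · exact ⟨fun w => c * w ^ m, by fun_prop, fun x => by rw [hn]⟩
      · refine ⟨fun w => conj c * w ^ m, by fun_prop, fun x => ?_⟩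
        rw [fourier_neg, hn, ← Complex.conj_re (c * _), map_mul, Complex.conj_conj]
    | zero => exact fun c => ⟨fun _ => 0, by fun_prop, fun x => by simp⟩
    | add q q' _ _ ih ih' =>
      intro c
      obtain ⟨F, hF, h⟩ := ih c
      obtain ⟨F', hF', h'⟩ := ih' c
      exact ⟨fun w => F w + F' w, hF.add hF', fun x => by
        simp only [ContinuousMap.add_apply, mul_add, Complex.add_re, h, h']⟩
    | smul a q _ ih =>
      intro c
      obtain ⟨F, hF, h⟩ := ih (c * a)
      exact ⟨F, hF, fun x => by rw [← h, ContinuousMap.smul_apply, smul_eq_mul, mul_assoc]⟩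
  obtain ⟨F, hF, h⟩ := key 1
  refine ⟨F, hF, fun w hw => ?_⟩
  obtain ⟨x, hx⟩ := (AddCircle.homeomorphCircle (T := 1) one_ne_zero).surjective
    ⟨w, by simpa [Submonoid.unitSphere] using hw⟩
  rw [AddCircle.homeomorphCircle_apply] at hx
  have hx' : ((AddCircle.toCircle x : Circle) : ℂ) = w := by rw [hx]
  have h1 := h x
  rw [one_mul, hx'] at h1
  have h2 : ‖f x - p x‖ < ε := by
    rw [← dist_eq_norm]; exact (ContinuousMap.dist_apply_le_dist x).trans_lt hd
  have h3 : (f x).re = g w := by simp [f, hx']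
  rw [← h1, ← h3, abs_sub_comm, ← Complex.sub_re]
  exact (Complex.abs_re_le_norm _).trans_lt h2

theorem cint_of_dcc {F : ℂ → ℂ} (hF : DiffContOnCl ℂ F (ball 0 1)) : CircleIntegrable F 0 1 := by
  refine ContinuousOn.circleIntegrable zero_le_one (hF.continuousOn.mono ?_)
  rw [closure_ball _ one_ne_zero]
  exact sphere_subset_closedBall

theorem avg_re' {F : ℂ → ℂ} (hF : DiffContOnCl ℂ F (ball 0 1)) :
    Real.circleAverage (fun w => (F w).re) 0 1 = (F 0).re := by
  have h1 := Complex.reCLM.circleAverage_comp_comm (cint_of_dcc hF)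
  rw [DiffContOnCl.circleAverage (R := 1) (by simpa using hF)] at h1
  exact h1

theorem avg_re {F : ℂ → ℂ} (hF : Differentiable ℂ F) :
    Real.circleAverage (fun w => (F w).re) 0 1 = (F 0).re := avg_re' hF.diffContOnCl

/-- maximum principle in one variable, local form -/
theorem max1 {K S : Set ℂ} (hK : IsCompact K) {φ : ℂ → EReal} (hφ : UpperSemicontinuousOn φ K)
    (hlt : ∀ z ∈ K, φ z < ⊤) {F : ℂ → ℂ} (hF : Differentiable ℂ F)
    (hloc : ∀ z ∈ K, z ∉ S → ∃ r : ℂ, r ≠ 0 ∧ (∀ w : ℂ, ‖w‖ = 1 → z + w • r ∈ K) ∧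
      ∀ g : ℂ → ℝ, Continuous g → (∀ w : ℂ, ‖w‖ = 1 → φ (z + w • r) ≤ g w) →
        φ z ≤ (Real.circleAverage g 0 1 : ℝ))
    (hS : ∀ z ∈ K, z ∈ S → φ z ≤ (F z).re) : ∀ z ∈ K, φ z ≤ (F z).re := by
  intro z hz
  obtain ⟨R, hR⟩ := hK.isBounded.exists_norm_le
  have hR0 : 0 ≤ R := (norm_nonneg _).trans (hR z hz)
  refine le_coe_of_forall fun ε hε => ?_
  set δ : ℝ := ε / (R ^ 2 + 1) with hδ
  have hδ0 : 0 < δ := by positivity
  have hδR : δ * R ^ 2 ≤ ε := by
    rw [hδ, div_mul_eq_mul_div, div_le_iff₀ (by positivity)]; nlinarith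
  set p : ℂ → ℝ := fun z => δ * ‖z‖ ^ 2 - (F z).re with hp
  have hpc : Continuous p := by have := hF.continuous; fun_prop
  obtain ⟨z0, hz0, hm⟩ := (usc_add hφ (usc_coe hpc.continuousOn) hlt
    fun _ _ => EReal.coe_lt_top _).exists_isMaxOn ⟨z, hz⟩ hK
  have hm' : ∀ y ∈ K, φ y + p y ≤ φ z0 + p z0 := fun y hy => hm hy
  by_cases hz0S : z0 ∈ S
  · have h1 := (hm' z hz).trans (add_le_coe (hS z0 hz0 hz0S) le_rfl)
    rw [add_coe_le_iff] at h1
    refine h1.trans (EReal.coe_le_coe_iff.2 ?_)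
    have h2 : δ * ‖z0‖ ^ 2 ≤ δ * R ^ 2 := by have := hR z0 hz0; gcongr
    have h3 : 0 ≤ δ * ‖z‖ ^ 2 := by positivity
    simp only [hp]; linarith
  · obtain ⟨r, hr, hrK, hsub⟩ := hloc z0 hz0 hz0S
    induction h0 : φ z0 with
    | top => exact absurd (h0 ▸ hlt z0 hz0) (lt_irrefl _)
    | bot =>
      have h1 := hm' z hz
      rw [h0, EReal.bot_add, le_bot_iff, EReal.add_eq_bot_iff] at h1
      rcases h1 with h1 | h1
      · rw [h1]; exact bot_le
      · exact absurd h1 (EReal.coe_ne_bot _)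
    | coe a =>
      exfalso
      set G : ℂ → ℂ := fun w => ((a + p z0 - δ * (‖z0‖ ^ 2 + ‖r‖ ^ 2) : ℝ) : ℂ) -
        2 * δ * (conj z0 * r) * w + F (z0 + w • r) with hG
      have hGd : Differentiable ℂ G := by
        have : Differentiable ℂ fun w : ℂ => F (z0 + w • r) := hF.comp (by fun_prop)
        fun_prop
      have h1 := hsub (fun w => (G w).re) (by have := hGd.continuous; fun_prop) fun w hw => by
        have h2 := hm' _ (hrK w hw)
        rw [h0, ← EReal.coe_add, add_coe_le_iff] at h2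
        refine h2.trans (le_of_eq ?_)
        congr 1
        have h3 : ‖z0 + w • r‖ ^ 2 = ‖z0‖ ^ 2 + ‖r‖ ^ 2 + 2 * (conj z0 * r * w).re := by
          have h4 : ‖r‖ ^ 2 = ‖w • r‖ ^ 2 := by rw [norm_smul, hw, one_mul]
          rw [h4, ← Complex.normSq_eq_norm_sq, ← Complex.normSq_eq_norm_sq,
            ← Complex.normSq_eq_norm_sq, Complex.normSq_add, smul_eq_mul]
          simp only [Complex.mul_re, Complex.mul_im, Complex.conj_re, Complex.conj_im, map_mul]
          ring
        have h5 : (2 * δ * (conj z0 * r) * w : ℂ).re = 2 * δ * (conj z0 * r * w).re := by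
          have : (2 * δ * (conj z0 * r) * w : ℂ) = ((2 * δ : ℝ) : ℂ) * (conj z0 * r * w) := by
            push_cast; ring
          rw [this, Complex.re_ofReal_mul]
        simp only [hG, hp, Complex.add_re, Complex.sub_re, Complex.ofReal_re, h5, h3]
        ring
      rw [avg_re hGd, h0, EReal.coe_le_coe_iff] at h1
      have h6 : 0 < δ * ‖r‖ ^ 2 := by have := norm_pos_iff.2 hr; positivity
      simp only [hG, hp, Complex.add_re, Complex.sub_re, Complex.ofReal_re, mul_zero,
        Complex.zero_re, zero_smul, add_zero] at h1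
      linarith

variable {E : Type*} [NormedAddCommGroup E] [NormedSpace ℂ E] {D : Set E} {u : E → EReal}

/-- it is enough to test harmonic majorants -/
theorem Sub.of_re (h : ∀ z v : E, DiscIn D z v → ∀ F : ℂ → ℂ, Differentiable ℂ F →
    (∀ w : ℂ, ‖w‖ = 1 → u (z + w • v) ≤ (F w).re) → u z ≤ (F 0).re) : Sub D u := by
  intro z v hz g hg hle
  refine le_coe_of_forall fun ε hε => ?_
  obtain ⟨F, hF, hFg⟩ := exists_entire_approx hg (half_pos hε)
  have hFc : Continuous fun w => (F w).re := by have := hF.continuous; fun_prop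
  have h1 := h z v hz (fun w => F w + (ε / 2 : ℝ)) (hF.add_const _) fun w hw => by
    refine (hle w hw).trans (EReal.coe_le_coe_iff.2 ?_)
    have := abs_lt.1 (hFg w hw)
    simp only [Complex.add_re, Complex.ofReal_re]; linarith
  refine h1.trans (EReal.coe_le_coe_iff.2 ?_)
  have h2 := avg_mono hFc (hg.add continuous_const) (g' := fun w => g w + ε / 2) fun w hw => by
    have := abs_lt.1 (hFg w hw); linarith
  rw [avg_re hF, avg_add_const hg] at h2
  simp only [Complex.add_re, Complex.ofReal_re]; linarith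

/-- sub-mean values on arbitrarily small discs -/
def LSub (D : Set E) (u : E → EReal) : Prop :=
  ∀ z ∈ D, ∀ v : E, ∃ᶠ r : ℝ in 𝓝[>] (0 : ℝ), ∀ g : ℂ → ℝ, Continuous g →
    (∀ w : ℂ, ‖w‖ = 1 → u (z + w • ((r : ℂ) • v)) ≤ g w) → u z ≤ (Real.circleAverage g 0 1 : ℝ)

theorem le_re_disc (h1 : UpperSemicontinuousOn u D) (h2 : ∀ x ∈ D, u x < ⊤) (h3 : LSub D u)
    {z v : E} (hz : DiscIn D z v) {F : ℂ → ℂ} (hF : Differentiable ℂ F)
    (hle : ∀ w : ℂ, ‖w‖ = 1 → u (z + w • v) ≤ (F w).re) {w : ℂ} (hw : ‖w‖ ≤ 1) :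
    u (z + w • v) ≤ (F w).re := by
  have hm : MapsTo (fun w : ℂ => z + w • v) (closedBall 0 1) D := fun w hw =>
    hz w (by simpa using hw)
  refine max1 (K := closedBall 0 1) (S := sphere 0 1) (isCompact_closedBall _ _)
    (φ := fun w => u (z + w • v)) (h1.comp (continuous_disc z v).continuousOn hm)
    (fun w hw => h2 _ (hm hw)) hF (fun w0 hw0 hS => ?_) (fun w _ hw => hle w (by simpa using hw))
    w (by simpa using hw)
  have hlt : ‖w0‖ < 1 := lt_of_le_of_ne (by simpa using hw0) (by simpa using hS)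
  obtain ⟨r, hr, hr1⟩ := ((h3 _ (hm hw0) v).and_eventually
    (Ioo_mem_nhdsGT (show (0 : ℝ) < 1 - ‖w0‖ by linarith))).exists
  refine ⟨r, by exact_mod_cast hr1.1.ne', fun w hw => ?_, fun g hg hle => hr g hg fun w hw => ?_⟩
  · rw [mem_closedBall_zero_iff]
    refine (norm_add_le _ _).trans ?_
    rw [norm_smul, hw, one_mul, Complex.norm_real, Real.norm_of_nonneg hr1.1.le]
    linarith [hr1.2]
  · have := hle w hw
    rwa [add_smul, ← add_assoc, smul_assoc] at this

/-- **locality** -/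
theorem IsPsh.of_lsub (h1 : UpperSemicontinuousOn u D) (h2 : ∀ x ∈ D, u x < ⊤) (h3 : LSub D u) :
    IsPsh D u :=
  ⟨h1, h2, Sub.of_re fun z v hz F hF hle => by
    simpa using le_re_disc h1 h2 h3 hz hF hle (w := 0) (by simp)⟩

theorem ev_discIn {V : Set E} {z : E} (hV : V ∈ 𝓝 z) (v : E) :
    ∀ᶠ r : ℝ in 𝓝[>] (0 : ℝ), DiscIn V z ((r : ℂ) • v) := by
  obtain ⟨ρ, hρ, hB⟩ := nhds_basis_closedBall.mem_iff.1 hV
  have t : Tendsto (fun r : ℝ => ‖(r : ℂ) • v‖) (𝓝 0) (𝓝 0) := by
    have : Continuous fun r : ℝ => ‖(r : ℂ) • v‖ := by fun_prop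
    simpa using this.tendsto 0
  filter_upwards [nhdsWithin_le_nhds (t.eventually (ge_mem_nhds hρ))] with r hr
  exact discIn_of_closedBall hB hr

theorem Sub.freq {V : Set E} (h : Sub V u) {z : E} (hV : V ∈ 𝓝 z) (v : E) :
    ∃ᶠ r : ℝ in 𝓝[>] (0 : ℝ), ∀ g : ℂ → ℝ, Continuous g →
      (∀ w : ℂ, ‖w‖ = 1 → u (z + w • ((r : ℂ) • v)) ≤ g w) →
        u z ≤ (Real.circleAverage g 0 1 : ℝ) :=
  ((ev_discIn hV v).mono fun _ hr => h _ _ hr).frequently

theorem IsPsh.lsub (h : IsPsh D u) (hD : IsOpen D) : LSub D u := fun _ hz v =>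
  h.sub.freq (hD.mem_nhds hz) v

theorem IsPsh.of_nhds (h : ∀ x ∈ D, ∃ V ∈ 𝓝 x, IsPsh V u) : IsPsh D u := by
  refine IsPsh.of_lsub (fun x hx y hy => ?_) (fun x hx => ?_) fun x hx v => ?_
  · obtain ⟨V, hV, h'⟩ := h x hx
    have := h'.usc x (mem_of_mem_nhds hV) y hy
    rw [nhdsWithin_eq_nhds.2 hV] at this
    exact nhdsWithin_le_nhds this
  · obtain ⟨V, hV, h'⟩ := h x hx
    exact h'.lt_top x (mem_of_mem_nhds hV)
  · obtain ⟨V, hV, h'⟩ := h x hx
    exact h'.sub.freq hV v

/-- **gluing**: `max u v` on `W`, `u` elsewhere -/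
theorem IsPsh.glue {W : Set E} [DecidablePred (· ∈ W)] {v : E → EReal} (h : IsPsh D u)
    (hD : IsOpen D) (hW : IsOpen W) (hv : IsPsh (D ∩ W) v)
    (hb : ∀ x ∈ D, x ∉ W → ∀ a : EReal, u x < a → ∀ᶠ y in 𝓝[W] x, v y < a) :
    IsPsh D (W.piecewise (fun x => max (u x) (v x)) u) := by
  set w := W.piecewise (fun x => max (u x) (v x)) u with hw
  have hin : IsPsh (D ∩ W) w :=
    ((h.mono inter_subset_left).sup hv).congr fun x hx => by simp [hw, hx.2]
  have hge : ∀ x, u x ≤ w x := fun x => by by_cases hx : x ∈ W <;> simp [hw, hx]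
  have hout : ∀ x, x ∉ W → w x = u x := fun x hx => by simp [hw, hx]
  refine IsPsh.of_lsub (fun x hx a ha => ?_) (fun x hx => ?_) fun x hx y => ?_
  · by_cases hxW : x ∈ W
    · exact nhdsWithin_le_nhds (hin.uscAt (hD.inter hW) ⟨hx, hxW⟩ a ha)
    · have ha' : u x < a := hout x hxW ▸ ha
      filter_upwards [h.usc x hx a ha',
        nhdsWithin_le_nhds (eventually_nhdsWithin_iff.1 (hb x hx hxW a ha'))] with y h1 h2
      by_cases hy : y ∈ W
      · simpa [hw, hy] using ⟨h1, h2 hy⟩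
      · exact (hout y hy).symm ▸ h1
  · by_cases hxW : x ∈ W
    · exact hin.lt_top x ⟨hx, hxW⟩
    · exact (hout x hxW).symm ▸ h.lt_top x hx
  · by_cases hxW : x ∈ W
    · exact hin.sub.freq ((hD.inter hW).mem_nhds ⟨hx, hxW⟩) y
    · refine (h.lsub hD x hx y).mono fun r hr g hg hle => ?_
      rw [hout x hxW]
      exact hr g hg fun w' hw' => (hge _).trans (hle w' hw')


/-! ### holomorphic functions -/

theorem dcc_disc {F : Type*} [NormedAddCommGroup F] [NormedSpace ℂ F] {f : E → F} (hD : IsOpen D)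
    (hf : DifferentiableOn ℂ f D) {z v : E} (hz : DiscIn D z v) :
    DiffContOnCl ℂ (fun w : ℂ => f (z + w • v)) (ball 0 1) := by
  refine DifferentiableOn.diffContOnCl fun w hw => ?_
  rw [closure_ball _ one_ne_zero] at hw
  have h1 : DifferentiableAt ℂ (fun w : ℂ => z + w • v) w := by fun_prop
  exact ((hf.differentiableAt (hD.mem_nhds (hz w (by simpa using hw)))).comp w
    h1).differentiableWithinAt

theorem isPsh_re {f : E → ℂ} (hD : IsOpen D) (hf : DifferentiableOn ℂ f D) :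
    IsPsh D fun x => ((f x).re : EReal) :=
  (isPsh_coe_iff (Complex.continuous_re.comp_continuousOn hf.continuousOn)).2 fun z v hz => by
    have := avg_re' (dcc_disc hD hf hz)
    simp only [zero_smul, add_zero] at this
    exact this.ge

theorem log_enorm_le_iff {F : Type*} [NormedAddCommGroup F] {y : F} {t : ℝ} :
    ENNReal.log ‖y‖ₑ ≤ t ↔ ‖y‖ ≤ Real.exp t := by
  rw [← EReal.exp_le_exp_iff, ENNReal.exp_log, EReal.exp_coe, ← ofReal_norm,
    ENNReal.ofReal_le_ofReal_iff (Real.exp_pos t).le]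

theorem log_enorm_of_ne {F : Type*} [NormedAddCommGroup F] {y : F} (hy : y ≠ 0) :
    ENNReal.log ‖y‖ₑ = (Real.log ‖y‖ : ℝ) := by
  rw [← ofReal_norm, ENNReal.log_ofReal_of_pos (norm_pos_iff.2 hy)]

/-- `log ‖f‖` for `f` holomorphic with values in any complex normed space -/
theorem isPsh_log_norm {F : Type*} [NormedAddCommGroup F] [NormedSpace ℂ F] {f : E → F}
    (hD : IsOpen D) (hf : DifferentiableOn ℂ f D) : IsPsh D fun x => ENNReal.log ‖f x‖ₑ := by
  refine ⟨(ENNReal.continuous_log.comp_continuousOn hf.continuousOn.enorm).upperSemicontinuousOn,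
    fun x _ => by simp, Sub.of_re fun z v hz P hP hle => ?_⟩
  have h1 : DiffContOnCl ℂ (fun w : ℂ => Complex.exp (-P w) • f (z + w • v)) (ball 0 1) :=
    (Differentiable.diffContOnCl (by fun_prop)).smul (dcc_disc hD hf hz)
  have key : ∀ w, ‖Complex.exp (-P w) • f (z + w • v)‖ ≤ 1 ↔
      ‖f (z + w • v)‖ ≤ Real.exp (P w).re := fun w => by
    rw [norm_smul, Complex.norm_exp, Complex.neg_re, Real.exp_neg,
      inv_mul_le_iff₀ (Real.exp_pos _), mul_one]
  have h2 := Complex.norm_le_of_forall_mem_frontier_norm_le isBounded_ball h1 (C := 1)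
    (fun w hw => by
      rw [frontier_ball _ one_ne_zero] at hw
      exact (key w).2 (log_enorm_le_iff.1 (hle w (by simpa using hw))))
    (subset_closure (mem_ball_self one_pos))
  rw [key, zero_smul, add_zero] at h2
  exact log_enorm_le_iff.2 h2


/-- `s log |w|` is subharmonic off the origin for every real `s` -/
theorem isPsh_mul_log (s : ℝ) : IsPsh {w : ℂ | w ≠ 0} fun w => ((s * Real.log ‖w‖ : ℝ) : EReal) := by
  have hO : IsOpen {w : ℂ | w ≠ 0} := isOpen_ne
  rcases le_total 0 s with hs | hs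
  · refine ((isPsh_log_norm (f := fun w : ℂ => w) hO (by fun_prop)).smul hs).congr fun w hw => ?_
    simp only [log_enorm_of_ne hw, EReal.coe_mul]
  · refine ((isPsh_log_norm (f := fun w : ℂ => w⁻¹) hO
      (differentiableOn_inv (𝕜 := ℂ))).smul (neg_nonneg.2 hs)).congr fun w hw => ?_
    simp only [log_enorm_of_ne (inv_ne_zero hw), norm_inv, Real.log_inv, ← EReal.coe_mul,
      neg_mul_neg]

/-! ### maximum principles -/

theorem IsPsh.le_re_disc (h : IsPsh D u) {z v : E} (hz : DiscIn D z v) {F : ℂ → ℂ}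
    (hF : Differentiable ℂ F) (hle : ∀ w : ℂ, ‖w‖ = 1 → u (z + w • v) ≤ (F w).re) {w : ℂ}
    (hw : ‖w‖ ≤ 1) : u (z + w • v) ≤ (F w).re := by
  have hm : MapsTo (fun w : ℂ => z + w • v) (closedBall 0 1) D := fun w hw =>
    hz w (by simpa using hw)
  have hl := (h.line z v).mono (D' := closedBall 0 1) hm
  refine max1 (K := closedBall 0 1) (S := sphere 0 1) (isCompact_closedBall _ _) hl.usc
    hl.lt_top hF (fun w0 hw0 hS => ?_) (fun w _ hw => hle w (by simpa using hw))
    w (by simpa using hw)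
  have hlt : ‖w0‖ < 1 := lt_of_le_of_ne (by simpa using hw0) (by simpa using hS)
  have hd : DiscIn (closedBall (0 : ℂ) 1) w0 ((1 - ‖w0‖ : ℝ) : ℂ) :=
    discIn_of_closedBall (r := 1 - ‖w0‖) (closedBall_subset_closedBall' (by simp))
      (by rw [Complex.norm_real, Real.norm_of_nonneg (by linarith)])
  exact ⟨_, by exact_mod_cast (sub_pos.2 hlt).ne', fun w hw => disc_circle hd hw, hl.sub _ _ hd⟩

/-- maximum principle on a compact subset of `ℂ` -/
theorem IsPsh.max1 {K : Set ℂ} (hK : IsCompact K) {φ : ℂ → EReal}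
    (hφ : UpperSemicontinuousOn φ K) (h : IsPsh (interior K) φ) {c : ℝ}
    (hc : ∀ z ∈ K, z ∉ interior K → φ z ≤ c) : ∀ z ∈ K, φ z ≤ c := by
  have := Psh.max1 (S := (interior K)ᶜ) hK hφ (fun z hz => by
      by_cases h1 : z ∈ interior K
      · exact h.lt_top z h1
      · exact (hc z hz h1).trans_lt (EReal.coe_lt_top _))
    (F := fun _ => (c : ℂ)) (differentiable_const _) (fun z _ hz => by
      obtain ⟨r, hr, hr0⟩ := ((ev_discIn (isOpen_interior.mem_nhds (not_not.1 hz)) (1 : ℂ)).and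
        self_mem_nhdsWithin).exists
      exact ⟨(r : ℂ) • 1, by simpa using (mem_Ioi.1 hr0).ne',
        fun w hw => interior_subset (disc_circle hr hw), h.sub _ _ hr⟩) (fun z hz hS => hc z hz hS)
  simpa using this


/-! ### Poisson–Harnack -/

/-- Poisson integral majorant -/
theorem IsPsh.le_poisson (h : IsPsh D u) {z v : E} (hz : DiscIn D z v) {g : ℂ → ℝ}
    (hg : Continuous g) (hle : ∀ w : ℂ, ‖w‖ = 1 → u (z + w • v) ≤ g w) {w : ℂ} (hw : ‖w‖ < 1) :
    u (z + w • v) ≤ (Real.circleAverage (fun ζ => ((ζ + w) / (ζ - w)).re * g ζ) 0 1 : ℝ) := by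
  have hwb : w ∈ ball (0 : ℂ) 1 := by simpa using hw
  have hPc : ContinuousOn (fun ζ : ℂ => ((ζ + w) / (ζ - w)).re) (sphere 0 1) := by
    refine Complex.continuous_re.comp_continuousOn (ContinuousOn.div (by fun_prop) (by fun_prop)
      fun ζ hζ h0 => ?_)
    rw [sub_eq_zero] at h0
    rw [h0, mem_sphere_zero_iff_norm] at hζ
    exact hw.ne hζ
  have hP0 : ∀ ζ ∈ sphere (0 : ℂ) 1, 0 ≤ ((ζ + w) / (ζ - w)).re := fun ζ hζ => by
    have := le_re_herglotzRieszKernel hζ hwb
    simp only [sub_zero] at this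
    exact le_trans (div_nonneg (by linarith) (by positivity)) this
  have hint : ∀ {f : ℂ → ℝ}, Continuous f →
      CircleIntegrable (fun ζ => ((ζ + w) / (ζ - w)).re * f ζ) 0 1 := fun hf =>
    (hPc.mul hf.continuousOn).circleIntegrable zero_le_one
  have hrep : ∀ {F : ℂ → ℂ}, Differentiable ℂ F →
      Real.circleAverage (fun ζ => ((ζ + w) / (ζ - w)).re * (F ζ).re) 0 1 = (F w).re := by
    intro F hF
    have h1 := hF.diffContOnCl.circleAverage_re_herglotzRieszKernel_smul' hwb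
    simp only [sub_zero] at h1
    have h2 := Complex.reCLM.circleAverage_comp_comm
      (f := fun ζ => ((ζ + w) / (ζ - w)).re • F ζ) (c := 0) (R := 1)
      ((hPc.smul hF.continuous.continuousOn).circleIntegrable zero_le_one)
    rw [h1] at h2
    rw [← show _ = (F w).re from h2]
    congr 1
    funext ζ
    simp
  refine le_coe_of_forall fun ε hε => ?_
  obtain ⟨F, hF, hFg⟩ := exists_entire_approx hg (half_pos hε)
  have hFc : Continuous fun w => (F w).re := by have := hF.continuous; fun_prop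
  have h1 := h.le_re_disc hz (F := fun w => F w + (ε / 2 : ℝ)) (hF.add_const _) (fun w hw => by
    refine (hle w hw).trans (EReal.coe_le_coe_iff.2 ?_)
    have := abs_lt.1 (hFg w hw)
    simp only [Complex.add_re, Complex.ofReal_re]; linarith) hw.le
  refine h1.trans (EReal.coe_le_coe_iff.2 ?_)
  have h2 := hrep (F := fun w => F w - (ε / 2 : ℝ)) (hF.sub_const _)
  have h3 := Real.circleAverage_mono (hint (f := fun ζ => (F ζ - (ε / 2 : ℝ)).re)
    (by have := hF.continuous; fun_prop)) (hint hg) fun ζ hζ => by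
      have hζ' : ζ ∈ sphere (0 : ℂ) 1 := by simpa using hζ
      refine mul_le_mul_of_nonneg_left ?_ (hP0 ζ hζ')
      have := abs_lt.1 (hFg ζ (by simpa using hζ'))
      simp only [Complex.sub_re, Complex.ofReal_re]; linarith
  rw [h2] at h3
  simp only [Complex.add_re, Complex.sub_re, Complex.ofReal_re] at h3 ⊢
  linarith

/-- **Harnack inequality**: `C - u(z + w v) ≥ (1-|w|)/(1+|w|) · (C - mean of a majorant)` -/
theorem IsPsh.harnack (h : IsPsh D u) {z v : E} (hz : DiscIn D z v) {g : ℂ → ℝ}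
    (hg : Continuous g) (hle : ∀ w : ℂ, ‖w‖ = 1 → u (z + w • v) ≤ g w) {C : ℝ}
    (hC : ∀ w : ℂ, ‖w‖ = 1 → g w ≤ C) {w : ℂ} (hw : ‖w‖ < 1) :
    u (z + w • v) ≤
      ((C - (1 - ‖w‖) / (1 + ‖w‖) * (C - Real.circleAverage g 0 1) : ℝ) : EReal) := by
  have hwb : w ∈ ball (0 : ℂ) 1 := by simpa using hw
  refine (h.le_poisson hz hg hle hw).trans (EReal.coe_le_coe_iff.2 ?_)
  have hPc : ContinuousOn (fun ζ : ℂ => ((ζ + w) / (ζ - w)).re) (sphere 0 1) := by
    refine Complex.continuous_re.comp_continuousOn (ContinuousOn.div (by fun_prop) (by fun_prop)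
      fun ζ hζ h0 => ?_)
    rw [sub_eq_zero] at h0
    rw [h0, mem_sphere_zero_iff_norm] at hζ
    exact hw.ne hζ
  set a : ℝ := (1 - ‖w‖) / (1 + ‖w‖) with ha
  have h1 : Real.circleAverage (fun ζ : ℂ => ((ζ + w) / (ζ - w)).re * C) 0 1 = C := by
    have h1 := (differentiable_const (𝕜 := ℂ) (C : ℂ)).diffContOnCl
      |>.circleAverage_re_herglotzRieszKernel_smul' hwb
    simp only [sub_zero] at h1
    have h2 := Complex.reCLM.circleAverage_comp_comm
      (f := fun ζ => ((ζ + w) / (ζ - w)).re • (C : ℂ)) (c := 0) (R := 1)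
      ((hPc.smul continuousOn_const).circleIntegrable zero_le_one)
    rw [h1] at h2
    refine Eq.trans ?_ (h2.trans (by simp))
    congr 1
    funext ζ
    simp
  have i1 : CircleIntegrable (fun ζ : ℂ => ((ζ + w) / (ζ - w)).re * C) 0 1 :=
    (hPc.mul continuousOn_const).circleIntegrable zero_le_one
  have i2 : CircleIntegrable (fun ζ : ℂ => a * g ζ + -(a * C)) 0 1 := cint (by fun_prop)
  have h3 := Real.circleAverage_mono ((hPc.mul hg.continuousOn).circleIntegrable zero_le_one)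
    (i1.add i2) (f₁ := fun ζ => ((ζ + w) / (ζ - w)).re * g ζ) fun ζ hζ => by
      have hζ' : ζ ∈ sphere (0 : ℂ) 1 := by simpa using hζ
      have h4 := le_re_herglotzRieszKernel hζ' hwb
      simp only [sub_zero] at h4
      have h5 := hC ζ (by simpa using hζ')
      simp only [Pi.add_apply]
      nlinarith
  rw [Real.circleAverage_add i1 i2, h1, avg_add_const (by fun_prop), avg_const_mul] at h3
  linarith

/-! ### three circles, Schwarz lemma -/

theorem IsPsh.annulus (h : IsPsh D u) (y : E) {r R : ℝ} (hr : 0 < r)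
    (hD : ∀ x, r ≤ ‖x - y‖ → ‖x - y‖ ≤ R → x ∈ D) {s m : ℝ}
    (h1 : ∀ x, ‖x - y‖ = r → u x ≤ ((m + s * Real.log r : ℝ) : EReal))
    (h2 : ∀ x, ‖x - y‖ = R → u x ≤ ((m + s * Real.log R : ℝ) : EReal)) {x : E}
    (hx1 : r ≤ ‖x - y‖) (hx2 : ‖x - y‖ ≤ R) :
    u x ≤ ((m + s * Real.log ‖x - y‖ : ℝ) : EReal) := by
  set ρ := ‖x - y‖ with hρ
  have hρ0 : 0 < ρ := hr.trans_le hx1
  set v : E := ((ρ⁻¹ : ℝ) : ℂ) • (x - y) with hv
  have hv1 : ‖v‖ = 1 := by
    rw [hv, norm_smul, Complex.norm_real, Real.norm_of_nonneg (by positivity),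
      inv_mul_cancel₀ hρ0.ne']
  have hn : ∀ w : ℂ, ‖y + w • v - y‖ = ‖w‖ := fun w => by
    rw [add_sub_cancel_left, norm_smul, hv1, mul_one]
  set K : Set ℂ := closedBall 0 R \ ball 0 r with hK
  have hKc : IsCompact K := (isCompact_closedBall _ _).diff isOpen_ball
  have hKm : ∀ w, w ∈ K ↔ ‖w‖ ≤ R ∧ r ≤ ‖w‖ := fun w => by simp [hK]
  have hl : IsPsh K fun w => u (y + w • v) + ((-s * Real.log ‖w‖ : ℝ) : EReal) := by
    refine ((h.line y v).mono fun w hw => ?_).add ((isPsh_mul_log (-s)).mono fun w hw => ?_)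
    · exact hD _ (by rw [hn]; exact ((hKm w).1 hw).2) (by rw [hn]; exact ((hKm w).1 hw).1)
    · exact norm_pos_iff.1 (hr.trans_le ((hKm w).1 hw).2)
  have key := IsPsh.max1 hKc hl.usc (hl.mono interior_subset) (c := m) (fun w hw hi => by
    obtain ⟨a, b⟩ := (hKm w).1 hw
    rw [add_coe_le_iff]
    rcases b.eq_or_lt with b | b
    · have := h1 _ ((hn w).trans b.symm)
      rwa [← b, neg_mul, sub_neg_eq_add]
    rcases a.eq_or_lt with a | a
    · have := h2 _ ((hn w).trans a)
      rwa [a, neg_mul, sub_neg_eq_add]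
    refine absurd (mem_interior_iff_mem_nhds.2 ?_) hi
    filter_upwards [continuous_norm.continuousAt.eventually (lt_mem_nhds b),
      continuous_norm.continuousAt.eventually (gt_mem_nhds a)] with w' h3 h4
    exact (hKm w').2 ⟨h4.le, h3.le⟩) (ρ : ℂ)
    ((hKm _).2 (by rw [Complex.norm_real, Real.norm_of_nonneg hρ0.le]; exact ⟨hx2, hx1⟩))
  have e : y + (ρ : ℂ) • v = x := by
    rw [hv, smul_smul, ← Complex.ofReal_mul, mul_inv_cancel₀ hρ0.ne']; simp
  rwa [e, add_coe_le_iff, Complex.norm_real, Real.norm_of_nonneg hρ0.le, neg_mul,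
    sub_neg_eq_add] at key

/-- **three circles** -/
theorem IsPsh.three_circles (h : IsPsh D u) (y : E) {r R : ℝ} (hr : 0 < r) (hrR : r < R)
    (hD : ∀ x, r ≤ ‖x - y‖ → ‖x - y‖ ≤ R → x ∈ D) {a b : ℝ}
    (h1 : ∀ x, ‖x - y‖ = r → u x ≤ a) (h2 : ∀ x, ‖x - y‖ = R → u x ≤ b) {x : E}
    (hx1 : r ≤ ‖x - y‖) (hx2 : ‖x - y‖ ≤ R) :
    u x ≤ ((b - (b - a) / (Real.log R - Real.log r) * (Real.log R - Real.log ‖x - y‖) : ℝ) :
      EReal) := by
  have hl : 0 < Real.log R - Real.log r := sub_pos.2 (Real.log_lt_log hr hrR)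
  set s := (b - a) / (Real.log R - Real.log r) with hs
  have := h.annulus y hr hD (s := s) (m := b - s * Real.log R) (fun x hx => by
    refine (h1 x hx).trans (le_of_eq ?_)
    congr 1
    have : s * (Real.log R - Real.log r) = b - a := div_mul_cancel₀ _ hl.ne'
    linarith) (fun x hx => by simpa using h2 x hx) hx1 hx2
  refine this.trans (le_of_eq ?_)
  congr 1; ring

/-- **Schwarz lemma**: a logarithmic pole of order `c` at `y` and the bound `b` on the sphere
of radius `R` give `u x ≤ b + c log (‖x - y‖ / R)` -/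
theorem IsPsh.schwarz (h : IsPsh D u) (y : E) {R : ℝ} (hD : closedBall y R \ {y} ⊆ D) {b c : ℝ}
    (h1 : ∀ c' < c, ∀ m : ℝ, ∃ᶠ r : ℝ in 𝓝[>] (0 : ℝ),
      ∀ x, ‖x - y‖ = r → u x ≤ ((m + c' * Real.log r : ℝ) : EReal))
    (h2 : ∀ x, ‖x - y‖ = R → u x ≤ b) {x : E} (hx : x ≠ y) (hx2 : ‖x - y‖ ≤ R) :
    u x ≤ ((b + c * (Real.log ‖x - y‖ - Real.log R) : ℝ) : EReal) := by
  have hρ : 0 < ‖x - y‖ := norm_pos_iff.2 (sub_ne_zero.2 hx)
  have hl : 0 ≤ Real.log R - Real.log ‖x - y‖ := sub_nonneg.2 (Real.log_le_log hρ hx2)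
  refine le_coe_of_forall fun ε hε => ?_
  set L := Real.log R - Real.log ‖x - y‖ with hL
  set c' := c - ε / (L + 1) with hc'
  have hε' : 0 < ε / (L + 1) := by positivity
  obtain ⟨r, hr, hr1⟩ := ((h1 c' (by linarith) (b - c' * Real.log R)).and_eventually
    (Ioo_mem_nhdsGT hρ)).exists
  have := h.annulus y hr1.1 (R := R) (fun x' a a' => hD ⟨by rwa [mem_closedBall, dist_eq_norm],
    fun h0 => by rw [mem_singleton_iff.1 h0, sub_self, norm_zero] at a; linarith [hr1.1]⟩)
    hr (fun x hx => by simpa using h2 x hx) hr1.2.le hx2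
  refine this.trans (EReal.coe_le_coe_iff.2 ?_)
  have h3 : ε / (L + 1) * L ≤ ε := by
    rw [div_mul_eq_mul_div, div_le_iff₀ (by positivity)]; nlinarith
  have h4 : Real.log ‖x - y‖ = Real.log R - L := by rw [hL]; ring
  rw [h4, hc']
  nlinarith

/-- Schwarz lemma, hypothesis `u ≤ c log ‖x - y‖ + C'` near `y` -/
theorem IsPsh.schwarz' (h : IsPsh D u) (y : E) {R : ℝ} (hD : closedBall y R \ {y} ⊆ D)
    {b c C' : ℝ} (h1 : ∀ᶠ x in 𝓝[≠] y, u x ≤ ((C' + c * Real.log ‖x - y‖ : ℝ) : EReal))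
    (h2 : ∀ x, ‖x - y‖ = R → u x ≤ b) {x : E} (hx : x ≠ y) (hx2 : ‖x - y‖ ≤ R) :
    u x ≤ ((b + c * (Real.log ‖x - y‖ - Real.log R) : ℝ) : EReal) := by
  refine h.schwarz y hD (fun c' hc' m => Eventually.frequently ?_) h2 hx hx2
  obtain ⟨δ, hδ, hb⟩ := Metric.mem_nhdsWithin_iff.1 h1
  have t : Tendsto (fun r : ℝ => (c - c') * Real.log r) (𝓝[>] 0) atBot :=
    Real.tendsto_log_nhdsGT_zero.const_mul_atBot (sub_pos.2 hc')
  filter_upwards [t.eventually (eventually_le_atBot (m - C')), Ioo_mem_nhdsGT hδ] with r hr1 hr2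
    x hx
  have := hb (a := x) ⟨by rw [mem_ball, dist_eq_norm, hx]; exact hr2.2, fun h0 => by
    rw [mem_singleton_iff.1 h0, sub_self, norm_zero] at hx; linarith [hr2.1]⟩
  refine le_trans this (EReal.coe_le_coe_iff.2 ?_)
  rw [hx]; linarith

end Crest.Agent.X261.Psh
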