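import Crest.Agent.X261.Wand.Main
import Crest.Agent.X261.Psh.Cvx
import Crest.Agent.X261.Psh.Hol71
import Crest.Agent.X261.Ans.Man1

/-!
# Row 261, package PSH (helper78), file `Bom`

* `NI μ u` : the set of points near which `e^{-u}` is not integrable;
* `exists_box`, `IsPsh.an_NI` : **Bombieri's theorem**, `NI μ u` is analytic for `u` psh;
* `NW_comp`, `NI_comp` : behaviour under local biholomorphisms;
* `HNI A μ u`, `LQ A u x`, `LQ.anAt` : the same on a manifold with atlas `A : HA E M`.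
-/

set_option autoImplicit false
set_option linter.dupNamespace false
set_option linter.unusedSectionVars false

open Set Filter Topology Metric MeasureTheory Module
open scoped ENNReal NNReal

noncomputable section

namespace Crest.Agent.X261.Psh

open Crest.Agent.X261.Ans (HA Van Cut AnAt An)

section top

variable {X : Type*} [TopologicalSpace X] [MeasurableSpace X] {μ ν : Measure X}
  {w w' : X → ℝ≥0∞} {u u' : X → EReal} {x : X}

/-- points near which `w` is not integrable -/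
def NW (μ : Measure X) (w : X → ℝ≥0∞) : Set X := {x | ∀ V ∈ 𝓝 x, ∫⁻ y in V, w y ∂μ = ⊤}

/-- points near which `e^{-u}` is not integrable -/
def NI (μ : Measure X) (u : X → EReal) : Set X := NW μ fun y => EReal.exp (-u y)

theorem notMem_NW : x ∉ NW μ w ↔ ∃ V ∈ 𝓝 x, ∫⁻ y in V, w y ∂μ < ⊤ := by
  simp [NW, lt_top_iff_ne_top]


theorem notMem_NI : x ∉ NI μ u ↔ ∃ V ∈ 𝓝 x, ∫⁻ y in V, EReal.exp (-u y) ∂μ < ⊤ := notMem_NW

theorem notMem_NW_open (h : x ∉ NW μ w) {N : Set X} (hN : N ∈ 𝓝 x) :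
    ∃ V, IsOpen V ∧ x ∈ V ∧ V ⊆ N ∧ ∫⁻ y in V, w y ∂μ < ⊤ := by
  obtain ⟨V, hV, h1⟩ := notMem_NW.1 h
  obtain ⟨O, h2, h3, h4⟩ := mem_nhds_iff.1 (inter_mem hV hN)
  exact ⟨O, h3, h4, h2.trans inter_subset_right,
    (lintegral_mono_set (h2.trans inter_subset_left)).trans_lt h1⟩

theorem isClosed_NW : IsClosed (NW μ w) := by
  refine ⟨isOpen_iff_mem_nhds.2 fun x hx => ?_⟩
  obtain ⟨V, h1, h2, -, h3⟩ := notMem_NW_open hx univ_mem
  filter_upwards [h1.mem_nhds h2] with y hy using notMem_NW.2 ⟨V, h1.mem_nhds hy, h3⟩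

theorem isClosed_NI : IsClosed (NI μ u) := isClosed_NW

theorem lint_lt_top_of_NW {K : Set X} (hK : IsCompact K) (h : ∀ x ∈ K, x ∉ NW μ w) :
    ∫⁻ y in K, w y ∂μ < ⊤ := by
  refine hK.induction_on (p := fun S => ∫⁻ y in S, w y ∂μ < ⊤) (by simp)
    (fun _ _ h1 h2 => (lintegral_mono_set h1).trans_lt h2)
    (fun _ _ h1 h2 => (lintegral_union_le _ _ _).trans_lt (ENNReal.add_lt_top.2 ⟨h1, h2⟩))
    fun x hx => ?_
  obtain ⟨V, hV, h1⟩ := notMem_NW.1 (h x hx)
  exact ⟨V, mem_nhdsWithin_of_mem_nhds hV, h1⟩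

variable [OpensMeasurableSpace X]

theorem NW_of_le {N : Set X} (hN : N ∈ 𝓝 x) {c : ℝ≥0∞} (hc : c ≠ ⊤)
    (h : ∀ᵐ y ∂μ, y ∈ N → w y ≤ c * w' y) (hx : x ∈ NW μ w) : x ∈ NW μ w' := by
  by_contra hcon
  obtain ⟨V, h1, h2, h3, h4⟩ := notMem_NW_open hcon hN
  refine notMem_NW.2 ⟨V, h1.mem_nhds h2, lt_of_le_of_lt (lintegral_mono_ae ?_)
    ((lintegral_const_mul' c w' hc).trans_lt (ENNReal.mul_lt_top hc.lt_top h4))⟩ hx
  filter_upwards [ae_restrict_of_ae h, ae_restrict_mem h1.measurableSet] with y hy hyV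
  exact hy (h3 hyV)



theorem exp_neg_le {a b : EReal} {C : ℝ} (h : b ≤ a + C) :
    EReal.exp (-a) ≤ ENNReal.ofReal (Real.exp C) * EReal.exp (-b) := by
  rw [← EReal.exp_coe, ← EReal.exp_add, EReal.exp_le_exp_iff]
  induction a with
  | top => simp
  | bot => simp at h; simp [h]
  | coe a =>
    induction b with
    | top => exact absurd h (by simp [← EReal.coe_add])
    | bot => simp
    | coe b =>
      norm_cast at h ⊢
      linarith

/-- `NI` decreases when the weight increases (up to a constant, almost everywhere) -/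
theorem NI_of_le_ae {N : Set X} (hN : N ∈ 𝓝 x) {C : ℝ} (h : ∀ᵐ y ∂μ, y ∈ N → u' y ≤ u y + C)
    (hx : x ∈ NI μ u) : x ∈ NI μ u' :=
  NW_of_le hN ENNReal.ofReal_ne_top (h.mono fun _ hy hyN => exp_neg_le (hy hyN)) hx

theorem NI_of_le {C : ℝ} (h : ∀ᶠ y in 𝓝 x, u' y ≤ u y + C) (hx : x ∈ NI μ u) : x ∈ NI μ u' :=
  NI_of_le_ae h (Eventually.of_forall fun _ hy => hy) hx

theorem NI_of_le' (h : ∀ᶠ y in 𝓝 x, u' y ≤ u y) (hx : x ∈ NI μ u) : x ∈ NI μ u' :=
  NI_of_le (C := 0) (by simpa using h) hx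

theorem NI_congr (h : u =ᶠ[𝓝 x] u') : x ∈ NI μ u ↔ x ∈ NI μ u' :=
  ⟨NI_of_le' (h.mono fun _ hy => hy.ge), NI_of_le' (h.mono fun _ hy => hy.le)⟩

omit [MeasurableSpace X] [OpensMeasurableSpace X] in
theorem ev_add_cont (u : X → EReal) {g : X → ℝ} (hg : ContinuousAt g x) : ∀ᶠ y in 𝓝 x,
    u y + g y ≤ u y + (|g x| + 1 : ℝ) ∧ u y ≤ u y + g y + (|g x| + 1 : ℝ) := by
  filter_upwards [hg.eventually (Metric.ball_mem_nhds (g x) one_pos)] with y hy
  have h1 := abs_lt.1 (show |g y - g x| < 1 from hy)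
  have h2 := le_abs_self (g x)
  have h3 := neg_abs_le (g x)
  refine ⟨add_le_add le_rfl (EReal.coe_le_coe_iff.2 (by linarith)), ?_⟩
  rw [add_assoc, ← EReal.coe_add]
  exact le_add_of_nonneg_right (EReal.coe_nonneg.2 (by linarith))



/-- larger multiples of a weight which is bounded above have a larger singular set -/
theorem NI_mul_mono {N N' C : ℝ} (hN : 0 ≤ N) (hNN : N ≤ N') (h : ∀ᶠ y in 𝓝 x, u y ≤ C)
    (hx : x ∈ NI μ fun y => (N : EReal) * u y) : x ∈ NI μ fun y => (N' : EReal) * u y := by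
  refine NI_of_le (C := (N' - N) * C) (h.mono fun y hy => ?_) hx
  induction hu : u y with
  | top => simp [hu] at hy
  | bot =>
    rcases (hN.trans hNN).eq_or_lt with h0 | h0
    · have : N = 0 := le_antisymm (h0 ▸ hNN) hN
      simp [← h0, this]
    · rw [EReal.coe_mul_bot_of_pos h0]; exact bot_le
  | coe a =>
    rw [hu] at hy
    norm_cast at hy ⊢
    nlinarith

/-- a continuous function which is square integrable against the weight vanishes on `NW` -/
theorem zero_of_NW {f : X → ℂ} (hf : ContinuousAt f x) {V : Set X} (hV : V ∈ 𝓝 x)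
    (h : ∫⁻ y in V, ‖f y‖ₑ ^ 2 * w y ∂μ < ⊤) (hx : x ∈ NW μ w) : f x = 0 := by
  by_contra h0
  have hp : 0 < ‖f x‖ₑ / 2 := ENNReal.half_pos (by simpa using h0)
  have h1 : ∀ᶠ y in 𝓝 x, ‖f x‖ₑ / 2 < ‖f y‖ₑ := hf.enorm.eventually
    (lt_mem_nhds (ENNReal.half_lt_self (by simpa using h0) enorm_ne_top))
  have ht : ‖f x‖ₑ / 2 ≠ ⊤ := ENNReal.div_ne_top enorm_ne_top two_ne_zero
  refine notMem_NW.2 ⟨V, hV, h⟩ (NW_of_le h1 (c := ((‖f x‖ₑ / 2) ^ 2)⁻¹)
    (ENNReal.inv_ne_top.2 (ENNReal.pow_pos hp 2).ne') (Eventually.of_forall fun y hy => ?_) hx)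
  calc w y = ((‖f x‖ₑ / 2) ^ 2)⁻¹ * ((‖f x‖ₑ / 2) ^ 2 * w y) := by
        rw [← mul_assoc, ENNReal.inv_mul_cancel (ENNReal.pow_pos hp 2).ne' (ENNReal.pow_ne_top ht), one_mul]
    _ ≤ _ := by gcongr; exact le_of_lt hy

end top

section flat

variable {E F : Type*} [NormedAddCommGroup E] [NormedSpace ℂ E] [FiniteDimensional ℂ E]
  [MeasurableSpace E] [BorelSpace E] [NormedAddCommGroup F] [NormedSpace ℂ F]
  [FiniteDimensional ℂ F] [MeasurableSpace F] [BorelSpace F]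
  (μ : Measure E) [μ.IsAddHaarMeasure] (ν : Measure F) [ν.IsAddHaarMeasure]

/-- affine change of variables -/
theorem lint_affine (L : F ≃L[ℂ] E) (b : E) : ∃ s : ℝ≥0, s ≠ 0 ∧ ∀ (w : E → ℝ≥0∞) (S : Set E),
    ∫⁻ y in (fun y => b + L y) ⁻¹' S, w (b + L y) ∂ν = s * ∫⁻ x in S, w x ∂μ := by
  have : ProperSpace E := FiniteDimensional.proper ℂ E
  set A : F ≃ₜ E := L.toHomeomorph.trans (Homeomorph.addLeft b) with hA
  refine ⟨Measure.addHaarScalarFactor (ν.map L) μ,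
    (Measure.addHaarScalarFactor_pos_of_isAddHaarMeasure _ _).ne', fun w S => ?_⟩
  have hs : Measure.map A ν = Measure.addHaarScalarFactor (ν.map L) μ • μ := by
    have e : (A : F → E) = (fun y => b + y) ∘ L := rfl
    rw [e, ← Measure.map_map (measurable_const_add b) L.continuous.measurable,
      map_add_left_eq_self]
    exact Measure.isAddLeftInvariant_eq_smul _ μ
  have e := A.measurableEmbedding.lintegral_map (μ := ν.restrict (A ⁻¹' S)) w
  rw [← A.measurableEmbedding.restrict_map, hs, Measure.restrict_smul,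
    lintegral_smul_measure] at e
  exact e.symm

theorem NW_affine (L : F ≃L[ℂ] E) (b : E) {w : E → ℝ≥0∞} {y : F} :
    y ∈ NW ν (fun y => w (b + L y)) ↔ b + L y ∈ NW μ w := by
  obtain ⟨s, hs, h⟩ := lint_affine μ ν L b
  set A : F ≃ₜ E := L.toHomeomorph.trans (Homeomorph.addLeft b) with hA
  refine ⟨fun h1 V hV => ?_, fun h1 V hV => ?_⟩
  · have := h1 _ (A.continuous.continuousAt.preimage_mem_nhds hV)
    rw [show A ⁻¹' V = (fun y => b + L y) ⁻¹' V from rfl, h] at this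
    simpa [ENNReal.mul_eq_top, hs] using this
  · have h2 := h w (A '' V)
    rw [show (fun y => b + L y) ⁻¹' (A '' V) = V from A.preimage_image V,
      h1 _ (A.isOpenMap.image_mem_nhds hV)] at h2
    rw [h2, ENNReal.mul_top (by simpa using hs)]



theorem NW_comp_self (φ : OpenPartialHomeomorph E E) {x : E} (hx : x ∈ φ.source)
    (hφ : AnalyticAt ℂ φ x) {w : E → ℝ≥0∞} (h : φ x ∈ NW μ w) : x ∈ NW μ fun y => w (φ y) := by
  by_contra hcon
  have h1 : ContDiffAt ℝ 1 φ x := hφ.contDiffAt.restrict_scalars ℝ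
  have h2 : ContinuousAt (fun y => |(fderiv ℝ φ y).det|) x :=
    (ContinuousLinearMap.continuous_det.continuousAt.comp
      (h1.fderiv_right (m := 0) (by norm_num)).continuousAt).abs
  obtain ⟨V, h3, h4, h5, h6⟩ := notMem_NW_open hcon (((h2.eventually
    (gt_mem_nhds (lt_add_one _))).and (h1.eventually (by simp))).and (φ.open_source.mem_nhds hx))
  refine notMem_NW.2 ⟨φ '' V, φ.image_mem_nhds hx (h3.mem_nhds h4), ?_⟩ h
  rw [lintegral_image_eq_lintegral_abs_det_fderiv_mul μ h3.measurableSet (f' := fderiv ℝ φ)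
    (fun y hy => ((h5 hy).1.2.differentiableAt one_ne_zero).hasFDerivAt.hasFDerivWithinAt)
    (φ.injOn.mono fun y hy => (h5 hy).2)]
  refine lt_of_le_of_lt (setLIntegral_mono' h3.measurableSet fun y hy =>
    mul_le_mul_left (ENNReal.ofReal_le_ofReal (h5 hy).1.1.le) _) ?_
  rw [lintegral_const_mul' _ _ ENNReal.ofReal_ne_top]
  exact ENNReal.mul_lt_top ENNReal.ofReal_lt_top h6

/-- behaviour under holomorphic local homeomorphisms -/
theorem NW_comp (hd : finrank ℂ E = finrank ℂ F) (φ : OpenPartialHomeomorph E F) {x : E}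
    (hx : x ∈ φ.source) (hφ : AnalyticAt ℂ φ x) {w : F → ℝ≥0∞} (h : φ x ∈ NW ν w) :
    x ∈ NW μ fun y => w (φ y) := by
  set L : E ≃L[ℂ] F := ContinuousLinearEquiv.ofFinrankEq hd with hL
  have h1 : L.symm (φ x) ∈ NW μ fun y => w (0 + L y) := (NW_affine ν μ L 0).2 (by simpa using h)
  have h2 := NW_comp_self μ (φ.transHomeomorph L.symm.toHomeomorph) hx
    ((L.symm.analyticAt _).comp hφ) h1
  simpa using h2

theorem NI_comp (hd : finrank ℂ E = finrank ℂ F) (φ : OpenPartialHomeomorph E F) {x : E}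
    (hx : x ∈ φ.source) (hφ : AnalyticAt ℂ φ x) {u : F → EReal} (h : φ x ∈ NI ν u) :
    x ∈ NI μ fun y => u (φ y) := NW_comp μ ν hd φ hx hφ h


/-- **Bombieri**: boxes on which points off `NI` are detected by `L²` holomorphic functions -/
theorem exists_box {D : Set E} {x₀ : E} (hD : D ∈ 𝓝 x₀) : ∃ W K : Set E, IsOpen W ∧ x₀ ∈ W ∧
    IsCompact K ∧ W ⊆ K ∧ K ⊆ D ∧ ∀ (U : Set E) (u : E → EReal), IsOpen U → K ⊆ U → IsPsh U u →
      ∀ x ∈ W, x ∉ NI μ u → ∃ f : E → ℂ, AnalyticOnNhd ℂ f W ∧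
        ∫⁻ y in W, ‖f y‖ₑ ^ 2 * EReal.exp (-u y) ∂μ < ⊤ ∧ f x = 1 := by
  set n := finrank ℂ E with hn
  set L : (Fin n → ℂ) ≃L[ℂ] E := ContinuousLinearEquiv.ofFinrankEq (by simp [hn]) with hL
  set A : (Fin n → ℂ) ≃ₜ E := L.toHomeomorph.trans (Homeomorph.addLeft x₀) with hA
  have hAa : ∀ y, A y = x₀ + L y := fun _ => rfl
  obtain ⟨r, hr, h1⟩ := nhds_basis_closedBall.mem_iff.1
    (A.continuous.continuousAt.preimage_mem_nhds (x := 0) (t := D) (by simpa [hAa] using hD))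
  have hW : IsOpen (A '' ball 0 r) := A.isOpenMap _ isOpen_ball
  refine ⟨A '' ball 0 r, A '' closedBall 0 r, hW, ⟨0, mem_ball_self hr, by simp [hAa]⟩,
    (isCompact_closedBall 0 r).image A.continuous, image_mono ball_subset_closedBall,
    image_subset_iff.2 h1, fun U u hU hK hu x hx hxN => ?_⟩
  rcases Nat.eq_zero_or_pos n with h0 | h0
  · have : Subsingleton E := finrank_zero_iff.1 h0
    obtain ⟨V, hV, h2⟩ := notMem_NI.1 hxN
    refine ⟨fun _ => 1, fun _ _ => analyticAt_const, ?_, rfl⟩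
    simpa using (lintegral_mono_set fun y _ =>
      Subsingleton.elim x y ▸ mem_of_mem_nhds hV).trans_lt h2
  obtain ⟨y, hy, rfl⟩ := hx
  obtain ⟨V, hV, h2⟩ := notMem_NW.1 (mt (NW_affine μ volume L x₀).1 hxN)
  obtain ⟨h, h3, h4, h5⟩ := Wand.exists_hol_eq_one h0 (hU.preimage A.continuous)
    (hu.comp_affine (L : (Fin n → ℂ) →L[ℂ] E) x₀) (image_subset_iff.1 hK) hy hV h2
  obtain ⟨s, hs, h6⟩ := lint_affine μ volume L x₀
  refine ⟨fun z => h (A.symm z), R266.SCV.analyticOnNhd_of_differentiableOn hW (h3.comp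
    (f := fun z => L.symm (-x₀ + z)) (by fun_prop) ?_), ?_, by simpa using h5⟩
  · rintro _ ⟨z, hz, rfl⟩
    simpa [hAa] using hz
  · have h7 := h6 (fun z => ‖h (A.symm z)‖ₑ ^ 2 * EReal.exp (-u z)) (A '' ball 0 r)
    rw [show (fun y => x₀ + L y) ⁻¹' (A '' ball 0 r) = ball 0 r from A.preimage_image _] at h7
    simp only [← hAa, A.symm_apply_apply] at h7
    have h8 := h7.symm.trans_lt h4
    by_contra h9
    rw [not_lt, top_le_iff] at h9
    rw [h9, ENNReal.mul_top (by simpa using hs)] at h8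
    exact lt_irrefl _ h8

end flat

section an

variable {E F : Type} [NormedAddCommGroup E] [NormedSpace ℂ E] [FiniteDimensional ℂ E]
  [MeasurableSpace E] [BorelSpace E] [NormedAddCommGroup F] [NormedSpace ℂ F]
  [FiniteDimensional ℂ F] [MeasurableSpace F] [BorelSpace F]
  (μ : Measure E) [μ.IsAddHaarMeasure] (ν : Measure F) [ν.IsAddHaarMeasure]

/-- one box for all psh functions -/
theorem exists_cut_NI {D : Set E} (hD : IsOpen D) {x₀ : E} (hx : x₀ ∈ D) : ∃ W : Set E,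
    IsOpen W ∧ x₀ ∈ W ∧ W ⊆ D ∧ ∀ u : E → EReal, IsPsh D u → Cut W (NI μ u) := by
  obtain ⟨W, K, h1, h2, -, h3, h4, h5⟩ := exists_box μ (hD.mem_nhds hx)
  refine ⟨W, h1, h2, h3.trans h4, fun u hu y hy hyN => ?_⟩
  obtain ⟨f, h6, h7, h8⟩ := h5 D u hD h4 hu y hy hyN
  exact ⟨f, ⟨h6, fun z hz hzN => zero_of_NW (h6 z hz).continuousAt (h1.mem_nhds hz) h7 hzN⟩,
    by simp [h8]⟩

/-- **Bombieri's theorem** -/
theorem IsPsh.an_NI {D : Set E} {u : E → EReal} (h : IsPsh D u) (hD : IsOpen D) :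
    An D (NI μ u) := fun _ hx =>
  let ⟨W, h1, h2, _, h3⟩ := exists_cut_NI μ hD hx
  ⟨W, h1, h2, h3 u h⟩

/-- psh up to a bounded function near `x` -/
def BP (u : E → EReal) (x : E) : Prop :=
  ∃ (W : Set E) (v : E → EReal) (C : ℝ), IsOpen W ∧ x ∈ W ∧ IsPsh W v ∧
    ∀ z ∈ W, u z ≤ v z + C ∧ v z ≤ u z + C

variable {u u' : E → EReal} {x : E}

theorem BP.anAt (h : BP u x) : AnAt (NI μ u) x := by
  obtain ⟨W, v, C, h1, h2, h3, h4⟩ := h
  refine (h3.an_NI μ h1 x h2).congr ?_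
  filter_upwards [h1.mem_nhds h2] with y hy
  exact ⟨NI_of_le (mem_of_superset (h1.mem_nhds hy) fun z hz => (h4 z hz).1),
    NI_of_le (mem_of_superset (h1.mem_nhds hy) fun z hz => (h4 z hz).2)⟩

omit [MeasurableSpace E] [BorelSpace E] [MeasurableSpace F] [BorelSpace F]

theorem IsPsh.bp {D : Set E} (h : IsPsh D u) (hD : D ∈ 𝓝 x) : BP u x :=
  ⟨interior D, u, 0, isOpen_interior, mem_interior_iff_mem_nhds.2 hD, h.mono interior_subset,
    fun _ _ => by simp⟩

theorem BP.of_le (h : BP u x) {C : ℝ} (h' : ∀ᶠ z in 𝓝 x, u' z ≤ u z + C ∧ u z ≤ u' z + C) :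
    BP u' x := by
  obtain ⟨W, v, C', h1, h2, h3, h4⟩ := h
  obtain ⟨O, h5, h6, h7⟩ := _root_.eventually_nhds_iff.1 h'
  refine ⟨W ∩ O, v, C + C', h1.inter h6, ⟨h2, h7⟩, h3.mono inter_subset_left, fun z hz => ⟨?_, ?_⟩⟩
  · rw [add_comm C, EReal.coe_add, ← add_assoc]
    exact (h5 z hz.2).1.trans (add_le_add (h4 z hz.1).1 le_rfl)
  · rw [EReal.coe_add, ← add_assoc]
    exact (h4 z hz.1).2.trans (add_le_add (h5 z hz.2).2 le_rfl)

theorem BP.congr (h : BP u x) (h' : u =ᶠ[𝓝 x] u') : BP u' x :=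
  h.of_le (C := 0) (h'.mono fun _ hz => by simp [hz])

/-- quasi-psh functions -/
theorem bp_of_add {D : Set E} {g : E → ℝ} (h : IsPsh D fun z => u z + g z) (hD : D ∈ 𝓝 x)
    (hg : ContinuousAt g x) : BP u x :=
  (h.bp hD).of_le ((ev_add_cont u hg).mono fun _ hz => hz.symm)

theorem BP.eventually (h : BP u x) : ∀ᶠ y in 𝓝 x, BP u y := by
  obtain ⟨W, v, C, h1, h2, h3, h4⟩ := h
  filter_upwards [h1.mem_nhds h2] with y hy using ⟨W, v, C, h1, hy, h3, h4⟩

theorem BP.smul (h : BP u x) {N : ℝ} (hN : 0 ≤ N) : BP (fun z => (N : EReal) * u z) x := by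
  obtain ⟨W, v, C, h1, h2, h3, h4⟩ := h
  exact ⟨W, _, N * C, h1, h2, h3.smul hN, fun z hz =>
    ⟨Wand.mul_le_mul_add hN (h4 z hz).1, Wand.mul_le_mul_add hN (h4 z hz).2⟩⟩

theorem BP.add (h : BP u x) (h' : BP u' x) : BP (fun z => u z + u' z) x := by
  obtain ⟨W, v, C, h1, h2, h3, h4⟩ := h
  obtain ⟨W', v', C', h1', h2', h3', h4'⟩ := h'
  refine ⟨W ∩ W', _, C + C', h1.inter h1', ⟨h2, h2'⟩,
    (h3.mono inter_subset_left).add (h3'.mono inter_subset_right), fun z hz => ?_⟩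
  rw [EReal.coe_add, add_add_add_comm, add_add_add_comm (u z)]
  exact ⟨add_le_add (h4 z hz.1).1 (h4' z hz.2).1, add_le_add (h4 z hz.1).2 (h4' z hz.2).2⟩

theorem BP.comp {φ : F → E} {y : F} (h : BP u (φ y)) (hφ : AnalyticAt ℂ φ y) :
    BP (fun z => u (φ z)) y := by
  obtain ⟨W, v, C, h1, h2, h3, h4⟩ := h
  obtain ⟨O, h5, h6, h7⟩ := _root_.eventually_nhds_iff.1 (hφ.eventually_analyticAt.and
    (hφ.continuousAt.eventually (h1.mem_nhds h2)))
  exact ⟨O, _, C, h6, h7, Hol.comp_hol h1 h3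
    (fun z hz => (h5 z hz).1.differentiableAt.differentiableWithinAt) fun z hz => (h5 z hz).2,
    fun z hz => h4 _ (h5 z hz).2⟩


end an

section man

variable {E F : Type} [NormedAddCommGroup E] [NormedSpace ℂ E] [FiniteDimensional ℂ E]
  [MeasurableSpace E] [BorelSpace E] [NormedAddCommGroup F] [NormedSpace ℂ F]
  [FiniteDimensional ℂ F] [MeasurableSpace F] [BorelSpace F]
  {M N : Type} [TopologicalSpace M] [TopologicalSpace N] {A : HA E M} {B : HA F N}

/-- the non-integrability locus on a manifold -/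
def HNI (A : HA E M) (μ : Measure E) (u : M → EReal) : Set M :=
  {x | ∃ i, x ∈ (A.e i).source ∧ A.e i x ∈ NI μ fun z => u ((A.e i).symm z)}

/-- psh up to a bounded function near the point `x` of a manifold -/
def LQ (A : HA E M) (u : M → EReal) (x : M) : Prop :=
  ∃ i, x ∈ (A.e i).source ∧ BP (fun z => u ((A.e i).symm z)) (A.e i x)

variable (μ : Measure E) [μ.IsAddHaarMeasure] (ν : Measure F) [ν.IsAddHaarMeasure]
  {u u' : M → EReal} {x : M}

/-- pull-back under a holomorphic local homeomorphism, read in any chart -/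
theorem HNI_comp_chart (hd : finrank ℂ E = finrank ℂ F) (φ : OpenPartialHomeomorph M N)
    (hx : x ∈ φ.source) (hφ : A.Hol B φ x) {u : N → EReal} (h : φ x ∈ HNI B ν u) {i : A.ι}
    (hi : x ∈ (A.e i).source) : A.e i x ∈ NI μ fun z => u (φ ((A.e i).symm z)) := by
  obtain ⟨j, hj, h⟩ := h
  have hl := (A.e i).left_inv hi
  have hm : A.e i x ∈ (((A.e i).symm.trans φ).trans (B.e j)).source := by
    simp [hl, hx, hj, (A.e i).map_source hi]
  have h1 := NI_comp μ ν hd (((A.e i).symm.trans φ).trans (B.e j)) hm (hφ.2 i j hi hj)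
    (u := fun z => u ((B.e j).symm z)) (by simpa [hl] using h)
  refine (NI_congr ?_).1 h1
  filter_upwards [(HA.ev_chart hi).1 (hφ.1.eventually (HA.ev_source hj))] with z hz
  simp [(B.e j).left_inv hz]

theorem mem_HNI {i : A.ι} (hi : x ∈ (A.e i).source) :
    x ∈ HNI A μ u ↔ A.e i x ∈ NI μ fun z => u ((A.e i).symm z) :=
  ⟨fun h => HNI_comp_chart μ μ rfl (OpenPartialHomeomorph.refl M) (mem_univ x) (A.hol_id x) h hi,
    fun h => ⟨i, hi, h⟩⟩






theorem isClosed_HNI : IsClosed (HNI A μ u) := by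
  refine ⟨isOpen_iff_mem_nhds.2 fun x hx => ?_⟩
  obtain ⟨i, hi⟩ := A.cover x
  have h1 := isClosed_NI.isOpen_compl.mem_nhds (mt (mem_HNI μ hi).2 hx)
  filter_upwards [(HA.ev_chart' hi).1 h1, HA.ev_source hi] with y hy hyi
  exact mt (mem_HNI μ hyi).1 hy




/-- **Bombieri's theorem on a manifold** -/
theorem LQ.anAt (h : LQ A u x) : A.AnAt (HNI A μ u) x := by
  obtain ⟨i, hi, h⟩ := h
  refine ⟨i, hi, (h.anAt μ).congr ?_⟩
  filter_upwards [HA.ev_target hi] with z hz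
  rw [mem_preimage, mem_HNI μ ((A.e i).map_target hz), (A.e i).right_inv hz]

omit [MeasurableSpace E] [BorelSpace E] [MeasurableSpace F] [BorelSpace F]

theorem LQ.comp_chart {f : N → M} {y : N} (h : LQ A u (f y)) (hf : B.Hol A f y) {j : B.ι}
    (hj : y ∈ (B.e j).source) : BP (fun z => u (f ((B.e j).symm z))) (B.e j y) := by
  obtain ⟨i, hi, h⟩ := h
  have h1 := BP.comp (φ := fun z => A.e i (f ((B.e j).symm z))) (y := B.e j y)
    (by rwa [(B.e j).left_inv hj]) (hf.2 j i hj hi)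
  refine h1.congr ?_
  filter_upwards [(HA.ev_chart hj).1 (hf.1.eventually (HA.ev_source hi))] with z hz
  rw [(A.e i).left_inv hz]

theorem LQ.comp {f : N → M} {y : N} (h : LQ A u (f y)) (hf : B.Hol A f y) :
    LQ B (fun z => u (f z)) y :=
  let ⟨j, hj⟩ := B.cover y
  ⟨j, hj, h.comp_chart hf hj⟩

theorem LQ.chart (h : LQ A u x) {i : A.ι} (hi : x ∈ (A.e i).source) :
    BP (fun z => u ((A.e i).symm z)) (A.e i x) := h.comp_chart (A.hol_id x) hi

theorem lq_of_add {i : A.ι} (hi : x ∈ (A.e i).source) {D : Set E} {g : E → ℝ}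
    (h : IsPsh D fun z => u ((A.e i).symm z) + g z) (hD : D ∈ 𝓝 (A.e i x))
    (hg : ContinuousAt g (A.e i x)) : LQ A u x := ⟨i, hi, bp_of_add h hD hg⟩

theorem LQ.of_le (h : LQ A u x) {C : ℝ} (h' : ∀ᶠ z in 𝓝 x, u' z ≤ u z + C ∧ u z ≤ u' z + C) :
    LQ A u' x :=
  let ⟨i, hi, h⟩ := h
  ⟨i, hi, h.of_le ((HA.ev_chart hi).1 h')⟩

theorem LQ.smul (h : LQ A u x) {N : ℝ} (hN : 0 ≤ N) : LQ A (fun z => (N : EReal) * u z) x :=
  let ⟨i, hi, h⟩ := h
  ⟨i, hi, h.smul hN⟩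

theorem LQ.add (h : LQ A u x) (h' : LQ A u' x) : LQ A (fun z => u z + u' z) x :=
  let ⟨i, hi, h⟩ := h
  ⟨i, hi, h.add (h'.chart hi)⟩


end man

end Crest.Agent.X261.Psh
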