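import Crest.Agent.X261.Psh.Hol71
import Crest.Agent.X261.Psh.Loc

/-!
# Row 261, package PSH (helper71), file `Kis71`: Kiselman's minimum principle

`Tube D I u` : `(x, τ) ↦ u x (re τ)` is psh on `D × {re τ ∈ I}`.

* `Tube.convex`   : `u x` is convex on `I`;
* `Tube.iInf`     : `x ↦ inf_{s ∈ I} u x s` is psh on `D` (`D` open, `I` any nonempty interval);
* `Tube.legendre` : the same for `inf_s (u x s - t s)`;
* `tube_of_rot`   : `(x, s) ↦ U (x, exp s)` for `U` psh and rotation invariant;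
* `tube_sup`      : `(x, s) ↦ sup {u (x + e^s w)}`.
-/

set_option autoImplicit false
set_option linter.dupNamespace false
set_option linter.unusedSectionVars false

open Set Filter Topology Metric

noncomputable section

namespace Crest.Agent.X261.Psh.Kis

open Crest.Agent.R275.FL884 (DiscIn)
open Crest.Agent.R276.Poi_999 (reP reP_cont reP_mean exists_reP)

variable {E : Type*} [NormedAddCommGroup E] [NormedSpace ℂ E]

/-- the vertical strip over `I` -/
def strip (I : Set ℝ) : Set ℂ := {τ | τ.re ∈ I}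

theorem isOpen_strip {I : Set ℝ} (hI : IsOpen I) : IsOpen (strip I) :=
  hI.preimage Complex.continuous_re

/-- `(x, τ) ↦ u x (re τ)` is plurisubharmonic on `D × strip I` -/
def Tube (D : Set E) (I : Set ℝ) (u : E → ℝ → EReal) : Prop :=
  IsPsh (D ×ˢ strip I) fun p : E × ℂ => u p.1 p.2.re

/-- subharmonic functions of `re τ` are convex -/
theorem convex_one {φ : ℝ → EReal} {s0 s1 : ℝ}
    (h : IsPsh (strip (Icc s0 s1)) fun τ : ℂ => φ τ.re) {α β : ℝ}
    (h0 : φ s0 ≤ (α + β * s0 : ℝ)) (h1 : φ s1 ≤ (α + β * s1 : ℝ)) {s : ℝ} (hs : s ∈ Icc s0 s1) :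
    φ s ≤ (α + β * s : ℝ) := by
  have hu : UpperSemicontinuousOn φ (Icc s0 s1) := by
    have := h.usc.comp (g := fun t : ℝ => (t : ℂ)) (t := Icc s0 s1)
      Complex.continuous_ofReal.continuousOn fun t ht => by simpa [strip] using ht
    simpa [Function.comp_def] using this
  have ht : ∀ t ∈ Icc s0 s1, φ t < ⊤ := fun t ht => by
    simpa using h.lt_top (t : ℂ) (by simpa [strip] using ht)
  by_contra hcon
  push Not at hcon
  obtain ⟨a, ha⟩ : ∃ a : ℝ, φ s = a :=
    ⟨_, (EReal.coe_toReal (ht _ hs).ne (ne_bot_of_gt hcon)).symm⟩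
  rw [ha, EReal.coe_lt_coe_iff] at hcon
  set L : ℝ := (s1 - s0) ^ 2 + 1 with hL
  have hL0 : 0 < L := by positivity
  set ε : ℝ := (a - (α + β * s)) / L with hε
  have hε0 : 0 < ε := div_pos (by linarith) hL0
  have hεL : ε * L = a - (α + β * s) := by rw [hε]; field_simp
  set c : ℝ → ℝ := fun t => -(α + β * t) + ε * ((t - s0) * (t - s1)) with hc
  obtain ⟨t0, ht0, hmax⟩ := (usc_add hu (usc_coe (g := c) (by fun_prop)) ht
    fun _ _ => EReal.coe_lt_top _).exists_isMaxOn ⟨s, hs⟩ isCompact_Icc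
  have hge : ((a + c s : ℝ) : EReal) ≤ φ t0 + (c t0 : ℝ) := by
    rw [EReal.coe_add, ← ha]; exact hmax hs
  obtain ⟨b, hb⟩ : ∃ b : ℝ, φ t0 = b := by
    refine ⟨_, (EReal.coe_toReal (ht _ ht0).ne fun h => ?_).symm⟩
    rw [h, EReal.bot_add] at hge
    exact absurd hge (by simp [-EReal.coe_add])
  rw [hb, ← EReal.coe_add, EReal.coe_le_coe_iff] at hge
  have hpos : 0 < b + c t0 := by
    refine lt_of_lt_of_le ?_ hge
    have h2 : -(s1 - s0) ^ 2 ≤ (s - s0) * (s - s1) := by nlinarith [hs.1, hs.2]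
    simp only [hc]
    nlinarith
  have hl : s0 < t0 := by
    refine lt_of_le_of_ne ht0.1 fun e => ?_
    rw [e, hb, EReal.coe_le_coe_iff] at h0
    simp only [hc, ← e, sub_self, zero_mul, mul_zero] at hpos
    rw [← e] at h0
    linarith
  have hr : t0 < s1 := by
    refine lt_of_le_of_ne ht0.2 fun e => ?_
    rw [← e, hb, EReal.coe_le_coe_iff] at h1
    simp only [hc, ← e, sub_self, mul_zero] at hpos
    linarith
  set ρ : ℝ := min (t0 - s0) (s1 - t0) with hρ
  have hρ0 : 0 < ρ := lt_min (by linarith) (by linarith)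
  have hre : ∀ w : ℂ, ((t0 : ℂ) + w • (ρ : ℂ)).re = t0 + w.re * ρ := fun w => by simp
  have hin : ∀ w : ℂ, ‖w‖ ≤ 1 → t0 + w.re * ρ ∈ Icc s0 s1 := fun w hw => by
    have h2 := abs_le.1 ((Complex.abs_re_le_norm w).trans hw)
    have h3 := min_le_left (t0 - s0) (s1 - t0)
    have h4 := min_le_right (t0 - s0) (s1 - t0)
    constructor <;> nlinarith [h2.1, h2.2]
  have hd : DiscIn (strip (Icc s0 s1)) (t0 : ℂ) (ρ : ℂ) := fun w hw => by
    show ((t0 : ℂ) + w • (ρ : ℂ)).re ∈ Icc s0 s1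
    rw [hre]; exact hin w hw
  have key := Hol.SubAt.re (u := fun τ : ℂ => φ τ.re) (h.sub _ _ hd)
    (H := fun w => ((b - ε * ρ ^ 2 / 2 : ℝ) : ℂ) +
      ((β * ρ - ε * ρ * (2 * t0 - s0 - s1) : ℝ) : ℂ) * w - ((ε * ρ ^ 2 / 2 : ℝ) : ℂ) * (w * w))
    (Differentiable.diffContOnCl (by fun_prop)) fun w hw => ?_
  · simp only [Complex.ofReal_re, hb, mul_zero, add_zero, sub_zero, EReal.coe_le_coe_iff] at key
    have : 0 < ε * ρ ^ 2 / 2 := by positivity
    linarith
  have h5 : φ (t0 + w.re * ρ) + (c (t0 + w.re * ρ) : ℝ) ≤ ((b + c t0 : ℝ) : EReal) := by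
    rw [EReal.coe_add b, ← hb]; exact hmax (hin w hw.le)
  simp only [hre]
  refine (add_coe_le_iff.1 h5).trans (EReal.coe_le_coe_iff.2 (le_of_eq ?_))
  have h6 : w.re * w.re + w.im * w.im = 1 := by
    rw [← Complex.normSq_apply, Complex.normSq_eq_norm_sq, hw]; norm_num
  simp only [Complex.sub_re, Complex.add_re, Complex.ofReal_re,
    Complex.mul_re, hc, Complex.ofReal_im, zero_mul, sub_zero]
  linear_combination (-(ε * ρ ^ 2 / 2)) * h6

namespace Tube

variable {D : Set E} {I : Set ℝ} {u : E → ℝ → EReal}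

theorem mono (h : Tube D I u) {D' : Set E} {I' : Set ℝ} (hD : D' ⊆ D) (hI : I' ⊆ I) :
    Tube D' I' u :=
  IsPsh.mono h (prod_mono hD fun _ hτ => hI hτ)

theorem slice (h : Tube D I u) {s : ℝ} (hs : s ∈ I) : IsPsh D fun x => u x s :=
  (IsPsh.slice_left h (s : ℂ)).mono (fun _ hx => ⟨hx, hs⟩) |>.congr fun x _ => by simp

theorem slice' (h : Tube D I u) {x : E} (hx : x ∈ D) : IsPsh (strip I) fun τ : ℂ => u x τ.re :=
  (IsPsh.slice_right h x).mono fun _ hτ => ⟨hx, hτ⟩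

theorem usc (h : Tube D I u) :
    UpperSemicontinuousOn (fun p : E × ℝ => u p.1 p.2) (D ×ˢ I) := by
  have := (IsPsh.usc h).comp (g := fun p : E × ℝ => (p.1, (p.2 : ℂ))) (t := D ×ˢ I)
    (by fun_prop) fun p hp => ⟨hp.1, by simpa [strip] using hp.2⟩
  simpa [Function.comp_def] using this

theorem lt_top (h : Tube D I u) {x : E} (hx : x ∈ D) {s : ℝ} (hs : s ∈ I) : u x s < ⊤ :=
  (h.slice hs).lt_top x hx

/-- convexity: affine majorants at the end points -/
theorem le_affine (h : Tube D I u) (hI : I.OrdConnected) {x : E} (hx : x ∈ D) {s0 s1 : ℝ}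
    (hs0 : s0 ∈ I) (hs1 : s1 ∈ I) {α β : ℝ} (h0 : u x s0 ≤ (α + β * s0 : ℝ))
    (h1 : u x s1 ≤ (α + β * s1 : ℝ)) {s : ℝ} (hs : s ∈ Icc s0 s1) : u x s ≤ (α + β * s : ℝ) :=
  convex_one ((h.slice' hx).mono fun _ hτ => hI.out hs0 hs1 hτ) h0 h1 hs

/-- convexity -/
theorem convex (h : Tube D I u) (hI : I.OrdConnected) {x : E} (hx : x ∈ D) {s0 s1 : ℝ}
    (hs0 : s0 ∈ I) (hs1 : s1 ∈ I) {a b : ℝ} (h0 : u x s0 ≤ a) (h1 : u x s1 ≤ b) {p q : ℝ}
    (hp : 0 ≤ p) (hq : 0 ≤ q) (hpq : p + q = 1) :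
    u x (p * s0 + q * s1) ≤ (p * a + q * b : ℝ) := by
  wlog hle : s0 ≤ s1 generalizing s0 s1 a b p q
  · have := this hs1 hs0 h1 h0 hq hp (by linarith) (le_of_not_ge hle)
    rwa [add_comm, add_comm (q * b)] at this
  obtain rfl : p = 1 - q := by linarith
  rcases hle.eq_or_lt with rfl | hlt
  · rw [show (1 - q) * s0 + q * s0 = s0 by ring]
    rcases le_total a b with hab | hab
    · exact h0.trans (EReal.coe_le_coe_iff.2 (by nlinarith))
    · exact h1.trans (EReal.coe_le_coe_iff.2 (by nlinarith))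
  have hne : s1 - s0 ≠ 0 := by linarith
  have := h.le_affine hI hx hs0 hs1 (α := a - (b - a) / (s1 - s0) * s0) (β := (b - a) / (s1 - s0))
    (by rw [sub_add_cancel]; exact h0)
    (h1.trans (le_of_eq (by congr 1; field_simp; ring)))
    (s := (1 - q) * s0 + q * s1) ⟨by nlinarith, by nlinarith⟩
  refine this.trans (le_of_eq ?_)
  congr 1; field_simp; ring

theorem convex_lt (h : Tube D I u) (hI : I.OrdConnected) {x : E} (hx : x ∈ D) (a : ℝ) :
    Convex ℝ {s | s ∈ I ∧ u x s < a} := by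
  intro s0 h0 s1 h1 p q hp hq hpq
  refine ⟨hI.convex h0.1 h1.1 hp hq hpq, ?_⟩
  obtain ⟨b, hb1, hb2⟩ := EReal.lt_iff_exists_real_btwn.1 (max_lt h0.2 h1.2)
  refine (h.convex hI hx h0.1 h1.1 ((le_max_left _ _).trans hb1.le)
    ((le_max_right _ _).trans hb1.le) hp hq hpq).trans_lt ?_
  rwa [← add_mul, hpq, one_mul]

theorem sub_open (h : Tube D I u) (hD : IsOpen D) (hI : I.OrdConnected) (hIo : IsOpen I) :
    Sub D fun x => ⨅ s ∈ I, u x s := by
  refine Sub.of_lt fun z v hz g hg hlt => ?_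
  have hc := continuous_disc z v
  have hU : ∀ w : ℂ, ‖w‖ = 1 → ∀ s ∈ I, u (z + w • v) s < g w →
      ∀ᶠ p : ℂ × ℝ in 𝓝 w ×ˢ 𝓝 s, p.2 ∈ I ∧ u (z + p.1 • v) p.2 < g p.1 := by
    intro w hw s hs hlt
    obtain ⟨b, hb1, hb2⟩ := EReal.lt_iff_exists_real_btwn.1 hlt
    have h1 := h.usc (z + w • v, s) ⟨disc_circle hz hw, hs⟩ _ hb1
    rw [(hD.prod hIo).nhdsWithin_eq ⟨disc_circle hz hw, hs⟩] at h1
    have t : Tendsto (fun p : ℂ × ℝ => (z + p.1 • v, p.2)) (𝓝 w ×ˢ 𝓝 s) (𝓝 (z + w • v, s)) :=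
      ((hc.tendsto w).comp tendsto_fst).prodMk_nhds tendsto_snd
    filter_upwards [t.eventually h1, tendsto_snd.eventually (hIo.mem_nhds hs),
      tendsto_fst.eventually (hg.continuousAt.eventually
        (lt_mem_nhds (EReal.coe_lt_coe_iff.1 hb2)))] with p h2 h3 h4
    exact ⟨h3, h2.trans (EReal.coe_lt_coe_iff.2 h4)⟩
  obtain ⟨σ, hσ⟩ := exists_continuous_forall_mem_convex_of_local_const
    (t := fun w : ℂ => {s : ℝ | ‖w‖ = 1 → s ∈ I ∧ u (z + w • v) s < g w})
    (fun w => by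
      by_cases hw : ‖w‖ = 1
      · simpa [hw] using h.convex_lt hI (disc_circle hz hw) (g w)
      · simpa [hw] using convex_univ)
    (fun w => by
      by_cases hw : ‖w‖ = 1
      · obtain ⟨s, hs⟩ := iInf_lt_iff.1 (hlt w hw)
        obtain ⟨hsI, hs⟩ := iInf_lt_iff.1 hs
        refine ⟨s, ?_⟩
        have t : Tendsto (fun y : ℂ => (y, s)) (𝓝 w) (𝓝 w ×ˢ 𝓝 s) :=
          tendsto_id.prodMk tendsto_const_nhds
        exact (t.eventually (hU w hw s hsI hs)).mono fun y hy _ => hy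
      · exact ⟨0, (continuous_norm.continuousAt.eventually_ne hw).mono fun y hy h1 =>
          absurd h1 hy⟩)
  have htube : ∀ᶠ p : ℝ × ℂ in 𝓝 (0 : ℝ) ×ˢ 𝓝ˢ (sphere (0 : ℂ) 1),
      σ p.2 + p.1 ∈ I ∧ u (z + p.2 • v) (σ p.2 + p.1) < g p.2 := by
    refine (isCompact_sphere (0 : ℂ) 1).mem_prod_nhdsSet_of_forall fun w hw => ?_
    have hw' : ‖w‖ = 1 := by simpa using hw
    have t : Tendsto (fun p : ℝ × ℂ => (p.2, σ p.2 + p.1)) (𝓝 0 ×ˢ 𝓝 w) (𝓝 w ×ˢ 𝓝 (σ w)) := by
      refine tendsto_snd.prodMk ?_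
      have := ((σ.continuous.tendsto w).comp (tendsto_snd (f := 𝓝 (0 : ℝ)))).add tendsto_fst
      simpa using this
    exact t.eventually (hU w hw' _ (hσ w hw').1 (hσ w hw').2)
  obtain ⟨S, hS, T, hT, hST⟩ := eventually_prod_iff.1 htube
  obtain ⟨η, hη, hS'⟩ := Metric.eventually_nhds_iff.1 hS
  obtain ⟨P, hP⟩ := exists_reP (f := σ) σ.continuous.continuousOn hη
  have hPI : ∀ w : ℂ, ‖w‖ = 1 → reP P w ∈ I ∧ u (z + w • v) (reP P w) < g w := fun w hw => by
    have hw' : w ∈ sphere (0 : ℂ) 1 := by simpa using hw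
    have := hST (hS' (y := reP P w - σ w) (by simpa [Real.dist_eq] using hP w hw'))
      (subset_of_mem_nhdsSet hT hw')
    simpa using this
  have hin : ∀ w : ℂ, ‖w‖ ≤ 1 → reP P w ∈ I := fun w hw => by
    have hne : (sphere (0 : ℂ) 1).Nonempty := ⟨1, by simp⟩
    obtain ⟨w1, hw1, h1⟩ := (isCompact_sphere (0 : ℂ) 1).exists_isMinOn hne
      (reP_cont P).continuousOn
    obtain ⟨w2, hw2, h2⟩ := (isCompact_sphere (0 : ℂ) 1).exists_isMaxOn hne
      (reP_cont P).continuousOn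
    exact hI.out (hPI w1 (by simpa using hw1)).1 (hPI w2 (by simpa using hw2)).1
      ⟨Hol.le_reP (fun y hy => h1 (by simpa using hy)) hw,
        Hol.reP_le (fun y hy => h2 (by simpa using hy)) hw⟩
  let L : ℂ × ℂ →L[ℂ] E × ℂ :=
    ((ContinuousLinearMap.fst ℂ ℂ ℂ).smulRight v).prod (ContinuousLinearMap.snd ℂ ℂ ℂ)
  have hL : ∀ p : ℂ × ℂ, (z, (0 : ℂ)) + L p = (z + p.1 • v, p.2) := fun p => by simp [L]
  have h2 := IsPsh.comp_affine h L (z, 0)
  have := Hol.disc_le (((hD.prod (isOpen_strip hIo))).preimage (by fun_prop)) h2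
    (f := fun w => (w, P.eval w)) (differentiable_id.prodMk P.differentiable).diffContOnCl
    (fun w hw => by
      rw [mem_preimage, hL]
      exact ⟨hz w (by simpa using hw), hin w (by simpa using hw)⟩) hg
    (fun w hw => by rw [hL]; exact (hPI w hw).2.le)
  rw [hL] at this
  simp only [zero_smul, add_zero] at this
  exact (biInf_le _ (hin 0 (by simp))).trans this

/-- **Kiselman's minimum principle** -/
theorem iInf (h : Tube D I u) (hD : IsOpen D) (hI : I.OrdConnected) (hne : I.Nonempty) :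
    IsPsh D fun x => ⨅ s ∈ I, u x s := by
  obtain ⟨s0, hs0⟩ := hne
  refine ⟨upperSemicontinuousOn_iInf fun s => upperSemicontinuousOn_iInf fun hs =>
    (h.slice hs).usc, fun x hx => (biInf_le _ hs0).trans_lt (h.lt_top hx hs0), ?_⟩
  by_cases hs : I.Subsingleton
  · refine (h.slice hs0).sub.congr fun x _ => ?_
    simp [hs.eq_singleton_of_mem hs0]
  have hint : (interior I).Nonempty := by
    obtain ⟨a, ha, b, hb, hab⟩ := (not_subsingleton_iff.1 hs).exists_lt
    refine ⟨(a + b) / 2, mem_interior.2 ⟨Ioo a b, Ioo_subset_Icc_self.trans (hI.out ha hb),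
      isOpen_Ioo, by constructor <;> linarith⟩⟩
  refine ((h.mono subset_rfl interior_subset).sub_open hD hI.convex.interior.ordConnected
    isOpen_interior).congr fun x hx => ?_
  refine le_antisymm (le_iInf₂ fun s hs => ?_) (biInf_mono interior_subset)
  refine le_of_forall_gt_imp_ge_of_dense fun a ha => ?_
  have h1 : s ∈ closure (interior I) := by
    rw [Convex.closure_interior_eq_closure_of_nonempty_interior (𝕜 := ℝ) hI.convex hint]
    exact subset_closure hs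
  have h2 : ∀ᶠ t in 𝓝[I] s, u x t < a := by
    have t : Tendsto (fun t : ℝ => (x, t)) (𝓝[I] s) (𝓝[D ×ˢ I] (x, s)) :=
      (continuousWithinAt_const.prodMk continuousWithinAt_id).tendsto_nhdsWithin
        fun t ht => ⟨hx, ht⟩
    exact t.eventually (h.usc (x, s) ⟨hx, hs⟩ a ha)
  have : (𝓝[interior I] s).NeBot := mem_closure_iff_nhdsWithin_neBot.1 h1
  obtain ⟨t, ht1, ht2⟩ := ((h2.filter_mono (nhdsWithin_mono _ interior_subset)).and
    self_mem_nhdsWithin).exists
  exact (biInf_le (fun s => u x s) (show t ∈ interior I from ht2)).trans ht1.le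

theorem add_lin (h : Tube D I u) (t c : ℝ) : Tube D I fun x s => u x s + ((c + t * s : ℝ) : EReal) :=
  (IsPsh.add h (Hol.isPsh_re (H := fun p : E × ℂ => (c : ℂ) + t * p.2) (by fun_prop))).congr
    fun p _ => by simp

theorem add_psh (h : Tube D I u) {φ : E → EReal} (hφ : IsPsh D φ) :
    Tube D I fun x s => u x s + φ x :=
  IsPsh.add h (hφ.comp_fst _)

/-- Kiselman's partial Legendre transform -/
theorem legendre (h : Tube D I u) (hD : IsOpen D) (hI : I.OrdConnected) (hne : I.Nonempty)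
    (t c : ℝ) : IsPsh D fun x => ⨅ s ∈ I, (u x s + ((c + t * s : ℝ) : EReal)) :=
  (h.add_lin t c).iInf hD hI hne

end Tube



/-- supremum over the closed ball of radius `r` -/
def bsup (u : E → EReal) (x : E) (r : ℝ) : EReal := ⨆ y ∈ closedBall x r, u y

theorem le_bsup (u : E → EReal) {x y : E} {r : ℝ} (h : y ∈ closedBall x r) : u y ≤ bsup u x r :=
  le_biSup u h

theorem self_le_bsup (u : E → EReal) (x : E) {r : ℝ} (hr : 0 ≤ r) : u x ≤ bsup u x r :=
  le_bsup u (mem_closedBall_self hr)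

theorem bsup_le {u : E → EReal} {x : E} {r : ℝ} {a : EReal} (h : ∀ y ∈ closedBall x r, u y ≤ a) :
    bsup u x r ≤ a := iSup₂_le h

theorem bsup_mono (u : E → EReal) (x : E) {r r' : ℝ} (h : r ≤ r') : bsup u x r ≤ bsup u x r' :=
  biSup_mono (closedBall_subset_closedBall h)

theorem bsup_eq (u : E → EReal) (x : E) {ζ : ℂ} (hζ : ζ ≠ 0) :
    bsup u x ‖ζ‖ = ⨆ w : closedBall (0 : E) 1, u (x + ζ • (w : E)) := by
  have h0 : 0 < ‖ζ‖ := norm_pos_iff.2 hζ
  refine le_antisymm (bsup_le fun y hy => ?_) (iSup_le fun w => le_bsup u ?_)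
  · refine le_iSup_of_le ⟨ζ⁻¹ • (y - x), ?_⟩ (by simp [smul_smul, mul_inv_cancel₀ hζ])
    rw [mem_closedBall_zero_iff, norm_smul, norm_inv, inv_mul_le_iff₀ h0, mul_one]
    exact mem_closedBall_iff_norm.1 hy
  · rw [mem_closedBall_iff_norm, add_sub_cancel_left, norm_smul]
    exact mul_le_of_le_one_right h0.le (mem_closedBall_zero_iff.1 w.2)

/-- the points `(x, r)` with `closedBall x r ⊆ D` -/
theorem ev_bsup_lt [ProperSpace E] {D : Set E} (hD : IsOpen D) {u : E → EReal}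
    (hu : UpperSemicontinuousOn u D) {x : E} {r : ℝ} (hB : closedBall x r ⊆ D) {a : EReal}
    (ha : ∀ y ∈ closedBall x r, u y < a) :
    ∀ᶠ p : E × ℝ in 𝓝 (x, r), r < 0 ∨ ∀ y ∈ closedBall p.1 p.2, y ∈ D ∧ u y < a := by
  rcases lt_or_ge r 0 with hr | hr
  · exact Eventually.of_forall fun _ => Or.inl hr
  have hO : IsOpen {y | y ∈ D ∧ u y < a} := isOpen_iff_mem_nhds.2 fun y hy => by
    have := hu y hy.1 a hy.2
    rw [hD.nhdsWithin_eq hy.1] at this
    exact inter_mem (hD.mem_nhds hy.1) this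
  obtain ⟨δ, hδ, h⟩ := (isCompact_closedBall x r).exists_cthickening_subset_open hO
    fun y hy => ⟨hB hy, ha y hy⟩
  rw [cthickening_closedBall hδ.le hr] at h
  have : ∀ᶠ p : E × ℝ in 𝓝 (x, r), dist p.1 x + p.2 < δ + r :=
    ContinuousAt.eventually_lt (by fun_prop) continuousAt_const (by simpa using hδ)
  refine this.mono fun p hp => Or.inr fun y hy => h ?_
  rw [mem_closedBall] at hy ⊢
  linarith [dist_triangle y p.1 x]

/-- `(x, s) ↦ sup_{|y - x| ≤ e^s} u y` -/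
theorem tube_sup [FiniteDimensional ℂ E] {D D' : Set E} (hD : IsOpen D) {u : E → EReal}
    (hu : IsPsh D u) {I : Set ℝ} (hB : ∀ x ∈ D', ∀ s ∈ I, closedBall x (Real.exp s) ⊆ D) :
    Tube D' I fun x s => bsup u x (Real.exp s) := by
  have : ProperSpace E := FiniteDimensional.proper ℂ E
  have hmax : ∀ x ∈ D', ∀ s ∈ I, ∃ y ∈ closedBall x (Real.exp s), bsup u x (Real.exp s) = u y :=
    fun x hx s hs => by
    obtain ⟨y, hy, hm⟩ := (hu.usc.mono (hB x hx s hs)).exists_isMaxOn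
      ⟨x, mem_closedBall_self (Real.exp_pos s).le⟩ (isCompact_closedBall _ _)
    exact ⟨y, hy, le_antisymm (bsup_le hm) (le_bsup u hy)⟩
  refine ⟨fun p hp a ha => ?_, fun p hp => ?_, ?_⟩
  · obtain ⟨b, hb1, hb2⟩ := exists_between ha
    have h1 := ev_bsup_lt hD hu.usc (hB _ hp.1 _ hp.2) fun y hy => (le_bsup u hy).trans_lt hb1
    have t : Tendsto (fun q : E × ℂ => (q.1, Real.exp q.2.re)) (𝓝 p) (𝓝 (p.1, Real.exp p.2.re)) :=
      Continuous.tendsto (by fun_prop) p
    refine ((t.eventually h1).mono fun q hq => ?_).filter_mono nhdsWithin_le_nhds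
    exact (bsup_le fun y hy => ((hq.resolve_left (Real.exp_pos _).not_gt) y hy).2.le).trans_lt hb2
  · obtain ⟨y, hy, e⟩ := hmax _ hp.1 _ hp.2
    simp only [e]
    exact hu.lt_top y (hB _ hp.1 _ hp.2 hy)
  · refine (Sub.iSup (u := fun (w : closedBall (0 : E) 1) (p : E × ℂ) =>
      u (p.1 + Complex.exp p.2 • (w : E))) fun w => ?_).congr fun p _ => ?_
    · refine (Hol.comp_hol hD hu (φ := fun p : E × ℂ => p.1 + Complex.exp p.2 • (w : E))
        (by fun_prop) fun p hp => hB _ hp.1 _ hp.2 ?_).sub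
      rw [mem_closedBall_iff_norm, add_sub_cancel_left, norm_smul, Complex.norm_exp]
      exact mul_le_of_le_one_right (Real.exp_pos _).le (mem_closedBall_zero_iff.1 w.2)
    · simp only
      rw [← bsup_eq u _ (Complex.exp_ne_zero _), Complex.norm_exp]

end Crest.Agent.X261.Psh.Kis
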